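import Vale.Agent.P338.Lang

/-!
# Library for the stack language: loops, rulers, streams
-/

set_option linter.unusedSectionVars false

namespace Vale.Agent.P338

open Function (update)

variable {R Γ : Type}

namespace Runs

variable {s s' s₁ s₂ : Store R Γ} {c c' c₁ c₂ : ℕ} {p q : Prog R Γ}

/-- General rule for loops: an explicit family of states `T 0, ..., T n`. -/
theorem loop_family {t : (R → Option Γ) → Bool} {body : Prog R Γ} (T : ℕ → Store R Γ)
    (n : ℕ) (cost : ℕ → ℕ) (hc : ∀ i < n, t (T i).tops = true) (hn : t (T n).tops = false)
    (hb : ∀ i < n, Runs body (T i) (T (i + 1)) (cost i)) :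
    Runs (.loop t body) (T 0) (T n) ((∑ i ∈ Finset.range n, (cost i + 1)) + 1) := by
  induction n generalizing T cost with
  | zero => exact (Runs.loop_stop hn).weaken (by simp)
  | succ n ih =>
    have h := ih (fun i => T (i + 1)) (fun i => cost (i + 1)) (fun i hi => hc (i + 1) (by omega)) hn
      (fun i hi => hb (i + 1) (by omega))
    refine (Runs.loop_step (hc 0 (by omega)) (hb 0 (by omega)) h).weaken ?_
    rw [Finset.sum_range_succ' _ n]
    omega

/-- A single act, final state given by an equation. -/
theorem act_eq {f : (R → Option Γ) → R → Op Γ}
    (h : ∀ r, (f s.tops r).app (s r) = s' r) : Runs (.act f) s s' 1 :=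
  (Runs.act f s).conv (funext h) le_rfl

end Runs

variable [DecidableEq R]

/-! ### For loops over rulers -/

namespace Prog

/-- Run `p` once for every symbol of the ruler `r`.  The symbols already used are kept on `q`,
and at the end the ruler is restored. -/
def forR (r q : R) (p : Prog R Γ) : Prog R Γ :=
  .seq (whileNE r (.seq (mv r q) p)) (flip q r)

end Prog

namespace Runs

variable {s s' s₁ s₂ : Store R Γ} {c c' c₁ c₂ : ℕ} {p : Prog R Γ}

/-- For loop, general ruler and explicit family of states. -/
theorem forR_list {r q : R} (hrq : r ≠ q) (l : List Γ) (T : ℕ → Store R Γ) (cost : ℕ → ℕ)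
    (h : ∀ i < l.length,
      Runs p (update (update (T i) r (l.drop (i + 1))) q (l.take (i + 1)).reverse)
        (update (update (T (i + 1)) r (l.drop (i + 1))) q (l.take (i + 1)).reverse) (cost i)) :
    Runs (.forR r q p) (update (update (T 0) r l) q [])
      (update (update (T l.length) r l) q [])
      ((∑ i ∈ Finset.range l.length, (cost i + 2)) + 2 * l.length + 2) := by
  have h1 := loop_family (t := fun t => (t r).isSome) (body := .seq (.mv r q) p)
    (fun i => update (update (T i) r (l.drop i)) q (l.take i).reverse) l.length
    (fun i => cost i + 1)
    (by
      intro i hi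
      simp only [Store.tops, Function.update_of_ne hrq, Function.update_self]
      rw [List.drop_eq_getElem_cons hi]
      rfl)
    (by simp [Store.tops, Function.update_of_ne hrq])
    (by
      intro i hi
      have h2 : update (update (T i) r (l.drop i)) q (l.take i).reverse r
          = l[i] :: l.drop (i + 1) := by
        rw [Function.update_of_ne hrq, Function.update_self, List.drop_eq_getElem_cons hi]
      refine ((mv_cons hrq h2).seq (?_ : Runs p _ _ (cost i))).weaken (by omega)
      convert h i hi using 1
      funext k
      have h5 : (l.take (i + 1)).reverse = l[i] :: (l.take i).reverse := by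
        rw [List.take_succ_eq_append_getElem hi, List.reverse_append]; rfl
      rw [h5]
      simp only [Function.update_apply]
      split_ifs <;> rfl)
  have h2 := Runs.flip hrq.symm (update (update (T l.length) r (l.drop l.length)) q
    (l.take l.length).reverse)
  refine (h1.seq h2).conv ?_ ?_
  · funext k
    simp only [Function.update_apply]
    split_ifs <;> simp_all
  · simp only [Function.update_self, List.take_length, List.length_reverse]
    have : (∑ i ∈ Finset.range l.length, (cost i + 1 + 1))
      = ∑ i ∈ Finset.range l.length, (cost i + 2) := rfl
    omega

/-- For loop over a ruler with `n` equal symbols, variable cost. -/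
theorem forR_sum {r q : R} (hrq : r ≠ q) {a : Γ} {n : ℕ} (T : ℕ → Store R Γ) (c : ℕ → ℕ)
    (hr : (T 0) r = List.replicate n a) (hq : (T 0) q = [])
    (h : ∀ i < n,
      Runs p (update (update (T i) r (List.replicate (n - 1 - i) a)) q (List.replicate (i + 1) a))
        (update (update (T (i + 1)) r (List.replicate (n - 1 - i) a)) q
          (List.replicate (i + 1) a)) (c i)) :
    Runs (.forR r q p) (T 0) (update (update (T n) r (List.replicate n a)) q [])
      ((∑ i ∈ Finset.range n, c i) + 4 * n + 2) := by
  have h1 := forR_list (p := p) hrq (List.replicate n a) T c (by
    intro i hi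
    rw [List.length_replicate] at hi
    have := h i hi
    rwa [List.drop_replicate, List.take_replicate, List.reverse_replicate,
      Nat.min_eq_left (by omega), show n - (i + 1) = n - 1 - i by omega])
  rw [List.length_replicate] at h1
  have h2 : update (update (T 0) r (List.replicate n a)) q [] = T 0 := by
    funext k
    simp only [Function.update_apply]
    split_ifs with h3 h4
    · rw [h3, hq]
    · rw [h4, hr]
    · rfl
  rw [h2] at h1
  refine h1.weaken ?_
  rw [Finset.sum_add_distrib, Finset.sum_const, Finset.card_range, smul_eq_mul]
  omega

/-- For loop over a ruler with `n` equal symbols, constant cost of the body. -/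
theorem forR {r q : R} (hrq : r ≠ q) {a : Γ} {n : ℕ} (T : ℕ → Store R Γ) (c : ℕ)
    (hr : (T 0) r = List.replicate n a) (hq : (T 0) q = [])
    (h : ∀ i < n,
      Runs p (update (update (T i) r (List.replicate (n - 1 - i) a)) q (List.replicate (i + 1) a))
        (update (update (T (i + 1)) r (List.replicate (n - 1 - i) a)) q
          (List.replicate (i + 1) a)) c) :
    Runs (.forR r q p) (T 0) (update (update (T n) r (List.replicate n a)) q [])
      (n * (c + 4) + 2) := by
  refine (forR_sum hrq T (fun _ => c) hr hq h).weaken ?_
  rw [Finset.sum_const, Finset.card_range, smul_eq_mul]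
  nlinarith

end Runs

/-! ### Streams over rulers -/

namespace Prog

/-- Push `b` on `dst` once for every symbol of the ruler `r` (scratch `q`). -/
def fill (r q dst : R) (b : Γ) : Prog R Γ := forR r q (push dst b)

/-- Move `|r|` symbols from `src` to `dst` (scratch `q`). -/
def xfer (r q src dst : R) : Prog R Γ := forR r q (mv src dst)

/-- Pop `|r|` symbols from `src` (scratch `q`). -/
def skip (r q src : R) : Prog R Γ := forR r q (pop src)

/-- Push a copy of `r` on `dst` (scratch `q`). -/
def copy (r q dst : R) : Prog R Γ :=
  .seq (flip r q) (whileNE q (.act fun t => match t q with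
    | none => fun _ => .nop
    | some a => update (update (update (fun _ => .nop) q .pop) r (.push a)) dst (.push a)))

end Prog

namespace Runs

variable {s : Store R Γ}

theorem fill {r q dst : R} (hrq : r ≠ q) (hrd : r ≠ dst) (hqd : q ≠ dst) {a b : Γ} {n : ℕ}
    (hr : s r = List.replicate n a) (hq : s q = []) :
    Runs (.fill r q dst b) s (update s dst (List.replicate n b ++ s dst)) (5 * n + 2) := by
  have h := forR (p := .push dst b) hrq (a := a) (n := n)
    (fun i => update s dst (List.replicate i b ++ s dst)) 1 (by simp [hrd, hr]) (by simp [hqd, hq])
    (by
      intro i hi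
      refine (Runs.push dst b _).conv ?_ le_rfl
      funext k
      simp only [Function.update_apply]
      split_ifs <;> simp_all [List.replicate_succ])
  have h0 : update s dst (List.replicate 0 b ++ s dst) = s := by simp
  simp only [h0] at h
  refine h.conv ?_ (by omega)
  funext k
  simp only [Function.update_apply]
  split_ifs <;> simp_all

theorem xfer {r q src dst : R} (hrq : r ≠ q) (hrs : r ≠ src) (hrd : r ≠ dst) (hqs : q ≠ src)
    (hqd : q ≠ dst) (hsd : src ≠ dst) {a : Γ} {n : ℕ} {u v : List Γ}
    (hr : s r = List.replicate n a) (hq : s q = []) (hs : s src = u ++ v) (hu : u.length = n) :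
    Runs (.xfer r q src dst) s (update (update s src v) dst (u.reverse ++ s dst))
      (5 * n + 2) := by
  have h := forR (p := .mv src dst) hrq (a := a) (n := n)
    (fun i => update (update s src (u.drop i ++ v)) dst ((u.take i).reverse ++ s dst)) 1
    (by simp [hrd, hrs, hr]) (by simp [hqd, hqs, hq])
    (by
      intro i hi
      have hi' : i < u.length := by omega
      have h1 : update (update (update (update s src (u.drop i ++ v)) dst
          ((u.take i).reverse ++ s dst)) r (List.replicate (n - 1 - i) a)) q
          (List.replicate (i + 1) a) src = u[i] :: (u.drop (i + 1) ++ v) := by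
        rw [Function.update_of_ne hqs.symm, Function.update_of_ne hrs.symm,
          Function.update_of_ne hsd, Function.update_self, List.drop_eq_getElem_cons hi']
        rfl
      refine (Runs.mv_cons hsd h1).conv ?_ le_rfl
      have h5 : (u.take (i + 1)).reverse = u[i] :: (u.take i).reverse := by
        rw [List.take_succ_eq_append_getElem hi', List.reverse_append]; rfl
      clear h1 hs hr hq hu
      rw [h5]
      funext k
      simp only [Function.update_apply, List.cons_append]
      by_cases h6 : k = dst
      · subst h6; simp [hrd.symm, hqd.symm]
      · by_cases h7 : k = src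
        · subst h7; simp [hrs.symm, hqs.symm, h6]
        · simp [h6, h7])
  have h0 : update (update s src (u.drop 0 ++ v)) dst ((u.take 0).reverse ++ s dst) = s := by
    simp [← hs]
  simp only [h0] at h
  refine h.conv ?_ (by omega)
  rw [← hu, List.drop_length, List.take_length, List.nil_append]
  funext k
  by_cases h1 : k = q
  · subst h1; simp [hqd, hqs, hq]
  · by_cases h2 : k = r
    · subst h2; simp [hrd, hrs, hr, hu, hrq]
    · simp [h1, h2, Function.update_apply]

theorem skip {r q src : R} (hrq : r ≠ q) (hrs : r ≠ src) (hqs : q ≠ src)
    {a : Γ} {n : ℕ} {u v : List Γ}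
    (hr : s r = List.replicate n a) (hq : s q = []) (hs : s src = u ++ v) (hu : u.length = n) :
    Runs (.skip r q src) s (update s src v) (5 * n + 2) := by
  have h := forR (p := .pop src) hrq (a := a) (n := n)
    (fun i => update s src (u.drop i ++ v)) 1
    (by simp [hrs, hr]) (by simp [hqs, hq])
    (by
      intro i hi
      have hi' : i < u.length := by omega
      refine (Runs.pop src _).conv ?_ le_rfl
      funext k
      have h5 : (u.drop i ++ v).tail = u.drop (i + 1) ++ v := by
        rw [List.drop_eq_getElem_cons hi']; rfl
      clear hs hr hq
      simp only [Function.update_apply]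
      by_cases h7 : k = src
      · subst h7; simp [hrs.symm, hqs.symm, h5]
      · simp [h7])
  have h0 : update s src (u.drop 0 ++ v) = s := by
    simp [← hs]
  simp only [h0] at h
  refine h.conv ?_ (by omega)
  rw [← hu, List.drop_length, List.nil_append]
  funext k
  simp only [Function.update_apply]
  split_ifs with h1 h2 h3 h4
  · rw [h1] at h2; exact absurd h2 hqs
  · rw [h1, hq]
  · rw [h3] at h4; exact absurd h4 hrs
  · rw [h3, hr, hu]
  · rfl
  · rfl

theorem copy {r q dst : R} (hrq : r ≠ q) (hrd : r ≠ dst) (hqd : q ≠ dst)
    (hq : s q = []) :
    Runs (.copy r q dst) s (update s dst (s r ++ s dst)) (4 * (s r).length + 2) := by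
  have h1 := Runs.flip hrq s
  set l := s r with hl
  have h2 := loop_family (t := fun t : R → Option Γ => (t q).isSome)
    (body := .act fun t => match t q with
      | none => fun _ => .nop
      | some a => update (update (update (fun _ => .nop) q .pop) r (.push a)) dst (.push a))
    (fun i => update (update (update s q (l.reverse.drop i)) r ((l.reverse.take i).reverse)) dst
      ((l.reverse.take i).reverse ++ s dst)) l.length (fun _ => 1)
    (by
      intro i hi
      have hi' : i < l.reverse.length := by simpa using hi
      simp only [Store.tops, Function.update_of_ne hqd, Function.update_of_ne hrq.symm,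
        Function.update_self]
      rw [List.drop_eq_getElem_cons hi']
      rfl)
    (by
      simp only [Store.tops, Function.update_of_ne hqd, Function.update_of_ne hrq.symm,
        Function.update_self]
      rw [← List.length_reverse, List.drop_length]
      rfl)
    (by
      intro i hi
      have hi' : i < l.reverse.length := by simpa using hi
      apply act_eq
      intro k
      have h5 : (l.reverse.take (i + 1)).reverse = l.reverse[i] :: (l.reverse.take i).reverse := by
        rw [List.take_succ_eq_append_getElem hi', List.reverse_append]; rfl
      simp only [Store.tops, Function.update_of_ne hqd, Function.update_of_ne hrq.symm,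
        Function.update_self]
      rw [List.drop_eq_getElem_cons hi', h5]
      simp only [List.head?_cons, Function.update_apply]
      split_ifs <;> simp_all [Op.app])
  refine ((h1.seq (?_ : Runs _ _ (update s dst (l ++ s dst)) (2 * l.length + 1))).conv rfl ?_)
  · have h3 : update (update (update s q (l.reverse.drop 0)) r ((l.reverse.take 0).reverse)) dst
        ((l.reverse.take 0).reverse ++ s dst) =
        update (update s r []) q (l.reverse ++ s q) := by
      funext k
      simp only [Function.update_apply]
      split_ifs <;> simp_all
    have h4 : update (update (update s q (l.reverse.drop l.length)) r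
        ((l.reverse.take l.length).reverse)) dst ((l.reverse.take l.length).reverse ++ s dst) =
        update s dst (l ++ s dst) := by
      have h6 : l.reverse.take l.length = l.reverse := by
        rw [← List.length_reverse, List.take_length]
      have h7 : l.reverse.drop l.length = [] := by
        rw [← List.length_reverse, List.drop_length]
      rw [h6, h7, List.reverse_reverse]
      funext k
      simp only [Function.update_apply]
      split_ifs <;> simp_all
    simp only [h3, h4] at h2
    refine h2.weaken ?_
    rw [Finset.sum_const, Finset.card_range, smul_eq_mul]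
    omega
  · omega

end Runs

end Vale.Agent.P338
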