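import Vale.Agent.P338.H763.Lib

/-!
# Library for the stack language, part 2: rotating counters, padding
-/

set_option linter.unusedSectionVars false

namespace Vale.Agent.P338

open Function (update)

variable {R Γ : Type} [DecidableEq R]

namespace Prog

/-- Pair `(A, B)` of unary counters with `|A| + |B| = n`: decrease `|A|` by `|r|` modulo `n`. -/
def rotSub (A B C r q : R) : Prog R Γ :=
  .seq (forR r q (peek A fun o => if o.isSome then mv A B else mv B C))
    (peek C fun o => if o.isSome then .seq (flip B A) (flip C B) else nop)

/-- Pair `(A, B)` of unary counters with `|A| + |B| = n`: increase `|A|` by `|r|` modulo `n`. -/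
def rotAdd (A B C r q : R) : Prog R Γ :=
  .seq (forR r q (peek B fun o => if o.isSome then mv B A else mv A C))
    (peek B fun o => if o.isSome then nop else .seq (flip A B) (flip C A))

/-- Fill the stack `dst` with `b` up to height `|N1|` (scratch `N2`, `tmp`). -/
def padTo (dst N1 N2 tmp : R) (b : Γ) : Prog R Γ :=
  .seq (whileNE dst (.seq (mv dst tmp) (mv N1 N2)))
    (.seq (flip tmp dst) (.seq (whileNE N1 (.seq (push dst b) (mv N1 N2))) (flip N2 N1)))

end Prog

namespace Runs

variable {s : Store R Γ}

theorem mv_rep {r q : R} (hrq : r ≠ q) {a : Γ} {m k : ℕ}
    (hr : s r = List.replicate (m + 1) a) (hq : s q = List.replicate k a) :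
    Runs (.mv r q) s (update (update s r (List.replicate m a)) q (List.replicate (k + 1) a)) 1 := by
  have h := mv_cons hrq (s := s) (a := a) (l := List.replicate m a) (by rw [hr]; rfl)
  rw [hq] at h
  exact h

theorem rotSub {A B C r q : R} (hAB : A ≠ B) (hAC : A ≠ C) (hBC : B ≠ C) (hrA : r ≠ A)
    (hrB : r ≠ B) (hrC : r ≠ C) (hqA : q ≠ A) (hqB : q ≠ B) (hqC : q ≠ C) (hrq : r ≠ q)
    {t : Γ} {n a k : ℕ} (ha : a < n) (hk : k ≤ n) (hA : s A = List.replicate a t)
    (hB : s B = List.replicate (n - a) t) (hC : s C = []) (hr : s r = List.replicate k t)
    (hq : s q = []) :
    Runs (.rotSub A B C r q) s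
      (update (update s A (List.replicate ((a + (n - k)) % n) t)) B
        (List.replicate (n - (a + (n - k)) % n) t)) (10 * n + 20) := by
  have h := forR (p := (.peek A fun o => if o.isSome then .mv A B else .mv B C : Prog R Γ)) hrq
    (a := t) (n := k)
    (fun i => update (update (update s A (List.replicate (a - i) t)) B
      (List.replicate (n - (a - i) - (i - a)) t)) C (List.replicate (i - a) t)) 2
    (by simp [hrC, hrB, hrA, hr]) (by simp [hqC, hqB, hqA, hq])
    (by
      intro i hi
      apply Runs.peek (c := 1)
      rw [Function.update_of_ne hqA.symm, Function.update_of_ne hrA.symm,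
        Function.update_of_ne hAC, Function.update_of_ne hAB, Function.update_self]
      rcases Nat.lt_or_ge i a with hia | hia
      · obtain ⟨d, hd⟩ : ∃ d, a - i = d + 1 := ⟨a - i - 1, by omega⟩
        rw [hd, List.replicate_succ, List.head?_cons]
        simp only [Option.isSome_some, if_true]
        refine (mv_rep (a := t) (m := d) (k := n - (d + 1) - (i - a)) hAB ?_ ?_).conv ?_ le_rfl
        · rw [Function.update_of_ne hqA.symm, Function.update_of_ne hrA.symm,
            Function.update_of_ne hAC, Function.update_of_ne hAB, Function.update_self]
          rfl
        · rw [Function.update_of_ne hqB.symm, Function.update_of_ne hrB.symm,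
            Function.update_of_ne hBC, Function.update_self]
        · have e1 : a - (i + 1) = d := by omega
          have e2 : n - (d + 1) - (i - a) + 1 = n - d - (i + 1 - a) := by omega
          have e3 : i - a = 0 := by omega
          have e4 : i + 1 - a = 0 := by omega
          rw [e1, e2, e3, e4]
          funext x
          simp only [Function.update_apply]
          split_ifs <;> simp_all
      · have e0 : a - i = 0 := by omega
        obtain ⟨d, hd⟩ : ∃ d, n - (i - a) = d + 1 := ⟨n - (i - a) - 1, by omega⟩
        rw [e0]
        simp only [List.replicate_zero, List.head?_nil, Option.isSome_none, Nat.sub_zero, hd]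
        refine (mv_rep (a := t) (m := d) (k := i - a) hBC ?_ ?_).conv ?_ le_rfl
        · rw [Function.update_of_ne hqB.symm, Function.update_of_ne hrB.symm,
            Function.update_of_ne hBC, Function.update_self]
        · rw [Function.update_of_ne hqC.symm, Function.update_of_ne hrC.symm,
            Function.update_self]
        · have e1 : a - (i + 1) = 0 := by omega
          have e2 : n - (i + 1 - a) = d := by omega
          have e3 : i + 1 - a = i - a + 1 := by omega
          rw [e1, Nat.sub_zero, e2, e3]
          funext x
          simp only [Function.update_apply]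
          split_ifs <;> simp_all)
  have h0 : update (update (update s A (List.replicate (a - 0) t)) B
      (List.replicate (n - (a - 0) - (0 - a)) t)) C (List.replicate (0 - a) t) = s := by
    simp [← hC, ← hA, ← hB]
  simp only [h0] at h
  refine (h.seq (Runs.peek (c := 4 * n + 4) ?_)).weaken (by omega)
  rw [Function.update_of_ne hqC.symm, Function.update_of_ne hrC.symm, Function.update_self]
  rcases Nat.lt_or_ge a k with hka | hka
  · obtain ⟨d, hd⟩ : ∃ d, k - a = d + 1 := ⟨k - a - 1, by omega⟩
    rw [hd, List.replicate_succ, List.head?_cons]
    simp only [Option.isSome_some, if_true]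
    have h1 := Runs.flip hAB.symm (update (update (update (update (update s A
      (List.replicate (a - k) t)) B (List.replicate (n - (a - k) - (d + 1)) t)) C
        (t :: List.replicate d t)) r (List.replicate k t)) q [])
    refine (h1.seq (Runs.flip hBC.symm _)).conv ?_ ?_
    · have e1 : (a + (n - k)) % n = n - (d + 1) := by
        rw [Nat.mod_eq_of_lt (by omega)]; omega
      have e2 : a - k = 0 := by omega
      have e3 : n - (n - (d + 1)) = d + 1 := by omega
      rw [e1, e2, e3]
      funext x
      simp only [Function.update_apply, hAB, hAC, hBC, hAB.symm, hAC.symm, hBC.symm, hrA.symm,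
        hrB.symm, hrC.symm, hqA.symm, hqB.symm, hqC.symm, if_true, if_false]
      split_ifs <;> simp_all [List.replicate_succ']
    · simp only [Function.update_apply, hAB, hAC, hBC, hAB.symm, hAC.symm, hBC.symm, hrA.symm,
        hrB.symm, hrC.symm, hqA.symm, hqB.symm, hqC.symm, if_true, if_false]
      simp
      omega
  · have e1 : k - a = 0 := by omega
    rw [e1]
    simp only [List.replicate_zero, List.head?_nil, Option.isSome_none]
    refine (Runs.nop _).conv ?_ (by omega)
    have e2 : (a + (n - k)) % n = a - k := by
      rcases Nat.eq_or_lt_of_le hka with h3 | h3
      · rw [← h3, show k + (n - k) = n by omega, Nat.mod_self]; omega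
      · have : a + (n - k) = n + (a - k) := by omega
        rw [this, Nat.add_mod_left, Nat.mod_eq_of_lt (by omega)]
    rw [e2, Nat.sub_zero]
    funext x
    simp only [Function.update_apply]
    split_ifs <;> simp_all

theorem rotAdd {A B C r q : R} (hAB : A ≠ B) (hAC : A ≠ C) (hBC : B ≠ C) (hrA : r ≠ A)
    (hrB : r ≠ B) (hrC : r ≠ C) (hqA : q ≠ A) (hqB : q ≠ B) (hqC : q ≠ C) (hrq : r ≠ q)
    {t : Γ} {n a k : ℕ} (ha : a < n) (hk : k ≤ n) (hA : s A = List.replicate a t)
    (hB : s B = List.replicate (n - a) t) (hC : s C = []) (hr : s r = List.replicate k t)
    (hq : s q = []) :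
    Runs (.rotAdd A B C r q) s
      (update (update s A (List.replicate ((a + k) % n) t)) B
        (List.replicate (n - (a + k) % n) t)) (10 * n + 20) := by
  have h := forR (p := (.peek B fun o => if o.isSome then .mv B A else .mv A C : Prog R Γ)) hrq
    (a := t) (n := k)
    (fun i => update (update (update s A (List.replicate (n - (n - a - i) - (i - (n - a))) t)) B
      (List.replicate (n - a - i) t)) C (List.replicate (i - (n - a)) t)) 2
    (by simp [hrC, hrB, hrA, hr]) (by simp [hqC, hqB, hqA, hq])
    (by
      intro i hi
      apply Runs.peek (c := 1)
      rw [Function.update_of_ne hqB.symm, Function.update_of_ne hrB.symm,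
        Function.update_of_ne hBC, Function.update_self]
      rcases Nat.lt_or_ge i (n - a) with hia | hia
      · obtain ⟨d, hd⟩ : ∃ d, n - a - i = d + 1 := ⟨n - a - i - 1, by omega⟩
        rw [hd, List.replicate_succ, List.head?_cons]
        simp only [Option.isSome_some, if_true]
        refine (mv_rep (a := t) (m := d) (k := n - (d + 1) - (i - (n - a))) hAB.symm ?_ ?_).conv
          ?_ le_rfl
        · rw [Function.update_of_ne hqB.symm, Function.update_of_ne hrB.symm,
            Function.update_of_ne hBC, Function.update_self]
          rfl
        · rw [Function.update_of_ne hqA.symm, Function.update_of_ne hrA.symm,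
            Function.update_of_ne hAC, Function.update_of_ne hAB, Function.update_self]
        · have e1 : n - a - (i + 1) = d := by omega
          have e2 : n - (d + 1) - (i - (n - a)) + 1 = n - d - (i + 1 - (n - a)) := by omega
          have e3 : i - (n - a) = 0 := by omega
          have e4 : i + 1 - (n - a) = 0 := by omega
          rw [e1, e2, e3, e4]
          funext x
          simp only [Function.update_apply]
          split_ifs <;> simp_all
      · have e0 : n - a - i = 0 := by omega
        obtain ⟨d, hd⟩ : ∃ d, n - (i - (n - a)) = d + 1 := ⟨n - (i - (n - a)) - 1, by omega⟩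
        rw [e0]
        simp only [List.replicate_zero, List.head?_nil, Option.isSome_none, Nat.sub_zero, hd]
        refine (mv_rep (a := t) (m := d) (k := i - (n - a)) hAC ?_ ?_).conv ?_ le_rfl
        · rw [Function.update_of_ne hqA.symm, Function.update_of_ne hrA.symm,
            Function.update_of_ne hAC, Function.update_of_ne hAB, Function.update_self]
        · rw [Function.update_of_ne hqC.symm, Function.update_of_ne hrC.symm,
            Function.update_self]
        · have e1 : n - a - (i + 1) = 0 := by omega
          have e2 : n - (i + 1 - (n - a)) = d := by omega
          have e3 : i + 1 - (n - a) = i - (n - a) + 1 := by omega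
          rw [e1, Nat.sub_zero, e2, e3]
          funext x
          simp only [Function.update_apply]
          split_ifs <;> simp_all)
  have h0 : update (update (update s A (List.replicate (n - (n - a - 0) - (0 - (n - a))) t)) B
      (List.replicate (n - a - 0) t)) C (List.replicate (0 - (n - a)) t) = s := by
    have e1 : n - (n - a - 0) - (0 - (n - a)) = a := by omega
    rw [e1]
    simp [← hC, ← hA, ← hB]
  simp only [h0] at h
  refine (h.seq (Runs.peek (c := 4 * n + 4) ?_)).weaken (by omega)
  rw [Function.update_of_ne hqB.symm, Function.update_of_ne hrB.symm, Function.update_of_ne hBC,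
    Function.update_self]
  rcases Nat.lt_or_ge k (n - a) with hka | hka
  · obtain ⟨d, hd⟩ : ∃ d, n - a - k = d + 1 := ⟨n - a - k - 1, by omega⟩
    rw [hd, List.replicate_succ, List.head?_cons]
    simp only [Option.isSome_some, if_true]
    refine (Runs.nop _).conv ?_ (by omega)
    have e1 : (a + k) % n = n - (d + 1) - (k - (n - a)) := by
      rw [Nat.mod_eq_of_lt (by omega)]; omega
    have e2 : n - (n - (d + 1) - (k - (n - a))) = d + 1 := by omega
    have e3 : k - (n - a) = 0 := by omega
    rw [e1, e2, e3]
    funext x
    simp only [Function.update_apply]
    split_ifs <;> simp_all [List.replicate_succ]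
  · have e0 : n - a - k = 0 := by omega
    rw [e0]
    simp only [List.replicate_zero, List.head?_nil, Option.isSome_none]
    have h1 := Runs.flip hAB (update (update (update (update (update s A
      (List.replicate (n - 0 - (k - (n - a))) t)) B ([] : List Γ)) C
        (List.replicate (k - (n - a)) t)) r (List.replicate k t)) q [])
    refine (h1.seq (Runs.flip hAC.symm _)).conv ?_ ?_
    · have e1 : (a + k) % n = k - (n - a) := by
        have h3 : a + k = n + (k - (n - a)) := by omega
        rw [h3, Nat.add_mod_left, Nat.mod_eq_of_lt (by omega)]
      rw [e1]
      funext x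
      simp only [Function.update_apply, hAB, hAC, hBC, hAB.symm, hAC.symm, hBC.symm, hrA.symm,
        hrB.symm, hrC.symm, hqA.symm, hqB.symm, hqC.symm, if_true, if_false]
      split_ifs <;> simp_all
    · simp only [Function.update_apply, hAB, hAC, hBC, hAB.symm, hAC.symm, hBC.symm, hrA.symm,
        hrB.symm, hrC.symm, hqA.symm, hqB.symm, hqC.symm, if_true, if_false]
      simp
      omega

/-- Padding. -/
theorem padTo {dst N1 N2 tmp : R} (hd1 : dst ≠ N1) (hd2 : dst ≠ N2) (hdt : dst ≠ tmp)
    (h12 : N1 ≠ N2) (h1t : N1 ≠ tmp) (h2t : N2 ≠ tmp) {t b : Γ} {m : ℕ}
    (hN1 : s N1 = List.replicate m t) (hN2 : s N2 = []) (htmp : s tmp = [])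
    (hm : (s dst).length ≤ m) :
    Runs (.padTo dst N1 N2 tmp b) s
      (update s dst (List.replicate (m - (s dst).length) b ++ s dst)) (12 * m + 12) := by
  set l := s dst with hl
  -- phase 1
  have h1 := loop_family (t := fun t => (t dst).isSome)
    (body := (.seq (.mv dst tmp) (.mv N1 N2) : Prog R Γ))
    (fun i => update (update (update (update s dst (l.drop i)) tmp (l.take i).reverse) N1
      (List.replicate (m - i) t)) N2 (List.replicate i t)) l.length (fun _ => 2)
    (by
      intro i hi
      simp only [Store.tops]
      rw [Function.update_of_ne hd2, Function.update_of_ne hd1, Function.update_of_ne hdt,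
        Function.update_self, List.drop_eq_getElem_cons hi]
      rfl)
    (by
      simp only [Store.tops]
      rw [Function.update_of_ne hd2, Function.update_of_ne hd1, Function.update_of_ne hdt,
        Function.update_self, List.drop_length]
      rfl)
    (by
      intro i hi
      have e1 : update (update (update (update s dst (l.drop i)) tmp (l.take i).reverse) N1
        (List.replicate (m - i) t)) N2 (List.replicate i t) dst = l[i] :: l.drop (i + 1) := by
        rw [Function.update_of_ne hd2, Function.update_of_ne hd1, Function.update_of_ne hdt,
          Function.update_self, List.drop_eq_getElem_cons hi]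
      refine ((mv_cons hdt e1).seq ((mv_rep (a := t) (m := m - i - 1) (k := i) h12 ?_ ?_).conv
        ?_ le_rfl)).weaken le_rfl
      · rw [Function.update_of_ne h1t, Function.update_of_ne hd1.symm, Function.update_of_ne h12,
          Function.update_self]
        congr 1
        omega
      · rw [Function.update_of_ne h2t, Function.update_of_ne hd2.symm, Function.update_self]
      · have h5 : (l.take (i + 1)).reverse = l[i] :: (l.take i).reverse := by
          rw [List.take_succ_eq_append_getElem hi, List.reverse_append]; rfl
        rw [h5, show m - (i + 1) = m - i - 1 by omega]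
        clear e1
        funext x
        simp only [Function.update_apply]
        split_ifs <;> simp_all)
  have h0 : update (update (update (update s dst (l.drop 0)) tmp (l.take 0).reverse) N1
      (List.replicate (m - 0) t)) N2 (List.replicate 0 t) = s := by
    funext x
    simp only [Function.update_apply]
    split_ifs <;> simp_all
  simp only [h0] at h1
  rw [List.drop_length, List.take_length] at h1
  -- phase 2
  have h2 := Runs.flip hdt.symm (update (update (update (update s dst []) tmp l.reverse) N1
      (List.replicate (m - l.length) t)) N2 (List.replicate l.length t))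
  -- phase 3
  have h3 := loop_family (t := fun t => (t N1).isSome)
    (body := (.seq (.push dst b) (.mv N1 N2) : Prog R Γ))
    (fun i => update (update (update s dst (List.replicate i b ++ l)) N1
      (List.replicate (m - l.length - i) t)) N2 (List.replicate (l.length + i) t))
      (m - l.length) (fun _ => 2)
    (by
      intro i hi
      simp only [Store.tops]
      rw [Function.update_of_ne h12, Function.update_self,
        show m - l.length - i = (m - l.length - i - 1) + 1 by omega]
      rfl)
    (by
      simp only [Store.tops]
      rw [Function.update_of_ne h12, Function.update_self, Nat.sub_self]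
      rfl)
    (by
      intro i hi
      refine ((Runs.push dst b _).seq ((mv_rep (a := t) (m := m - l.length - i - 1)
        (k := l.length + i) h12 ?_ ?_).conv ?_ le_rfl)).weaken le_rfl
      · rw [Function.update_of_ne hd1.symm, Function.update_of_ne h12,
          Function.update_self]
        congr 1
        omega
      · rw [Function.update_of_ne hd2.symm, Function.update_self]
      · rw [show m - l.length - (i + 1) = m - l.length - i - 1 by omega,
          show l.length + (i + 1) = l.length + i + 1 by omega]
        funext x
        simp only [Function.update_apply]
        split_ifs <;> simp_all [List.replicate_succ])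
  -- phase 4
  have h4 := Runs.flip h12.symm (update (update (update s dst
    (List.replicate (m - l.length) b ++ l)) N1
      (List.replicate (m - l.length - (m - l.length)) t)) N2
        (List.replicate (l.length + (m - l.length)) t))
  have e2 : update (update (update (update (update (update s dst []) tmp l.reverse) N1
      (List.replicate (m - l.length) t)) N2 (List.replicate l.length t)) tmp []) dst
      ((update (update (update (update s dst []) tmp l.reverse) N1
      (List.replicate (m - l.length) t)) N2 (List.replicate l.length t) tmp).reverse ++
      update (update (update (update s dst []) tmp l.reverse) N1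
      (List.replicate (m - l.length) t)) N2 (List.replicate l.length t) dst) =
      update (update (update s dst (List.replicate 0 b ++ l)) N1
      (List.replicate (m - l.length - 0) t)) N2 (List.replicate (l.length + 0) t) := by
    funext x
    simp only [Function.update_apply, hdt.symm, hd1, hd2, hdt, h1t.symm, h2t.symm, if_true, if_false]
    split_ifs <;> simp_all
  rw [e2] at h2
  refine (h1.seq (h2.seq (h3.seq h4))).conv ?_ ?_
  · funext x
    simp only [Function.update_apply, h12, h12.symm, if_true, if_false]
    have e3 : l.length + (m - l.length) = m := by omega
    rw [e3]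
    split_ifs <;> simp_all
  · have e4 : update (update (update (update s dst []) tmp l.reverse) N1
      (List.replicate (m - l.length) t)) N2 (List.replicate l.length t) tmp = l.reverse := by
      rw [Function.update_of_ne h2t.symm, Function.update_of_ne h1t.symm, Function.update_self]
    rw [e4, Function.update_self]
    simp only [List.length_reverse, List.length_replicate, Finset.sum_const, Finset.card_range,
      smul_eq_mul]
    omega

end Runs

end Vale.Agent.P338
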