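import Vale.Agent.P338.H763.F1

/-!
# Programs of the two rotation passes
-/

set_option linter.unusedSectionVars false

namespace Vale.Agent.P338.H763

open Function (update)
open Vale.Agent.P338

/-- The registers of the rotation passes. -/
inductive R3 : Type
  | X | Y | A | B | rn | q | q'
  deriving DecidableEq

open R3 Prog

/-- One row of the first rotation. -/
def rot1row : Prog R3 Bool :=
  .seq (xfer rn q' X A) (.seq (xfer q q' X B) (.seq (flip A Y) (flip B Y)))

/-- First rotation. -/
def rot1P : Prog R3 Bool := .seq (forR rn q rot1row) (.seq (flip Y A) (flip A X))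

/-- One row of the second rotation. -/
def rot2row : Prog R3 Bool :=
  .seq (xfer q q' X A) (.seq (xfer rn q' X Y) (.seq (flip A B) (flip B Y)))

/-- Second rotation. -/
def rot2P : Prog R3 Bool := .seq (forR rn q rot2row) (flip Y X)

theorem rot1row_runs {s : Store R3 Bool} {k l : ℕ} {u v rest : List Bool}
    (hu : u.length = k) (hv : v.length = l) (hX : s X = u ++ (v ++ rest))
    (hn : s rn = zer k) (hq : s q = zer l) (hq' : s q' = []) (hA : s A = []) (hB : s B = []) :
    Runs rot1row s (update (update s X rest) Y (v ++ (u ++ s Y))) (7 * (k + l) + 6) := by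
  have h1 := Runs.xfer (s := s) (r := rn) (q := q') (src := X) (dst := A) (by decide) (by decide)
    (by decide) (by decide) (by decide) (by decide) (a := false) (n := k) (u := u)
    (v := v ++ rest) hn hq' hX hu
  have h2 := Runs.xfer (s := update (update s X (v ++ rest)) A (u.reverse ++ s A)) (r := q)
    (q := q') (src := X) (dst := B) (by decide) (by decide)
    (by decide) (by decide) (by decide) (by decide) (a := false) (n := l) (u := v)
    (v := rest) (by simpa [zer] using hq) (by simpa using hq') (by simp) hv
  have h3 := Runs.flip (r := A) (q := Y) (by decide) (update (update (update (update s X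
    (v ++ rest)) A (u.reverse ++ s A)) X rest) B (v.reverse ++ (update (update s X
    (v ++ rest)) A (u.reverse ++ s A)) B))
  refine (h1.seq (h2.seq (h3.seq (Runs.flip (r := B) (q := Y) (by decide) _)))).conv ?_ ?_
  · clear h1 h2 h3
    funext x
    cases x <;> simp [hA, hB]
  · simp [hA, hB, hu, hv]
    omega

theorem rot2row_runs {s : Store R3 Bool} {k l : ℕ} {u v rest : List Bool}
    (hu : u.length = k) (hv : v.length = l) (hX : s X = u ++ (v ++ rest))
    (hn : s rn = zer l) (hq : s q = zer k) (hq' : s q' = []) (hA : s A = []) (hB : s B = []) :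
    Runs rot2row s (update (update s X rest) Y ((v ++ u).reverse ++ s Y)) (9 * (k + l) + 6) := by
  have h1 := Runs.xfer (s := s) (r := q) (q := q') (src := X) (dst := A) (by decide) (by decide)
    (by decide) (by decide) (by decide) (by decide) (a := false) (n := k) (u := u)
    (v := v ++ rest) hq hq' hX hu
  have h2 := Runs.xfer (s := update (update s X (v ++ rest)) A (u.reverse ++ s A)) (r := rn)
    (q := q') (src := X) (dst := Y) (by decide) (by decide)
    (by decide) (by decide) (by decide) (by decide) (a := false) (n := l) (u := v)
    (v := rest) (by simpa [zer] using hn) (by simpa using hq') (by simp) hv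
  have h3 := Runs.flip (r := A) (q := B) (by decide) (update (update (update (update s X
    (v ++ rest)) A (u.reverse ++ s A)) X rest) Y (v.reverse ++ (update (update s X
    (v ++ rest)) A (u.reverse ++ s A)) Y))
  refine (h1.seq (h2.seq (h3.seq (Runs.flip (r := B) (q := Y) (by decide) _)))).conv ?_ ?_
  · clear h1 h2 h3
    funext x
    cases x <;> simp [hA, hB]
  · simp [hA, hB, hu]
    omega

theorem cat_congr {n : ℕ} {f g : ℕ → List Bool} (h : ∀ i < n, f i = g i) : cat n f = cat n g := by
  induction n with
  | zero => rfl
  | succ n ih => rw [cat_succ, cat_succ, ih fun i hi => h i (by omega), h n (by omega)]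

theorem drop_take_length {k n : ℕ} {l : List Bool} (h : l.length = n) :
    (l.drop k ++ l.take k).length = n := by
  simp [h]; omega

/-- Splitting a row of a matrix. -/
theorem row_split {n i k : ℕ} {x : List Bool} :
    x.drop (i * n) = ((x.drop (i * n)).take n).take k ++
      (((x.drop (i * n)).take n).drop k ++ x.drop ((i + 1) * n)) := by
  have h1 : x.drop ((i + 1) * n) = (x.drop (i * n)).drop n := by
    rw [List.drop_drop, Nat.succ_mul]
  rw [h1, ← List.append_assoc, List.take_append_drop, List.take_append_drop]

theorem row_length {n i : ℕ} {x : List Bool} (hx : x.length = n * n) (hi : i < n) :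
    ((x.drop (i * n)).take n).length = n := by
  rw [List.length_take, List.length_drop, hx]
  have : (i + 1) * n ≤ n * n := Nat.mul_le_mul_right _ hi
  rw [Nat.succ_mul] at this
  omega

theorem rot1P_runs {s : Store R3 Bool} {n : ℕ} {x : List Bool} (hx : x.length = n * n)
    (hX : s X = x) (hn : s rn = zer n) (hq : s q = []) (hq' : s q' = []) (hY : s Y = [])
    (hA : s A = []) (hB : s B = []) :
    Runs rot1P s (update s X (E.rot1 n x)) (11 * (n * n) + 10 * n + 4) := by
  set row : ℕ → List Bool := fun i => (x.drop (i * n)).take n with hrow
  have hs0 : update (update s X (x.drop (0 * n))) Y (cat 0 fun r => (row (0 - 1 - r)).drop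
      (n - 1 - (0 - 1 - r)) ++ (row (0 - 1 - r)).take (n - 1 - (0 - 1 - r))) = s := by
    funext k
    cases k <;> simp [hX, cat_zero, hY]
  have h1 := Runs.forR (r := rn) (q := q) (p := rot1row) (by decide) (a := false) (n := n)
    (fun i => update (update s X (x.drop (i * n))) Y (cat i fun r => (row (i - 1 - r)).drop
      (n - 1 - (i - 1 - r)) ++ (row (i - 1 - r)).take (n - 1 - (i - 1 - r)))) (7 * n + 6)
    (by simpa [zer] using hn) (by simpa using hq)
    (by
      intro i hi
      have hl := row_length hx hi
      refine (rot1row_runs (k := n - 1 - i) (l := i + 1) (u := (row i).take (n - 1 - i))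
        (v := (row i).drop (n - 1 - i)) (rest := x.drop ((i + 1) * n)) ?_ ?_ ?_ ?_ ?_ ?_ ?_
        ?_).conv ?_ (by omega)
      · rw [List.length_take, hl]; omega
      · rw [List.length_drop, hl]; omega
      · simpa using row_split
      · simp [zer]
      · simp [zer]
      · simpa using hq'
      · simpa using hA
      · simpa using hB
      · have h2 : (cat (i + 1) fun r => (row (i + 1 - 1 - r)).drop
            (n - 1 - (i + 1 - 1 - r)) ++ (row (i + 1 - 1 - r)).take (n - 1 - (i + 1 - 1 - r))) =
            (row i).drop (n - 1 - i) ++ ((row i).take (n - 1 - i) ++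
            cat i fun r => (row (i - 1 - r)).drop
              (n - 1 - (i - 1 - r)) ++ (row (i - 1 - r)).take (n - 1 - (i - 1 - r))) := by
          rw [cat_succ', ← List.append_assoc]
          congr 1
          refine cat_congr fun r hr => ?_
          rw [show i + 1 - 1 - (r + 1) = i - 1 - r by omega]
        rw [h2]
        funext k
        cases k <;> simp)
  simp only [hs0] at h1
  have h3 : (cat n fun r => (row (n - 1 - r)).drop
      (n - 1 - (n - 1 - r)) ++ (row (n - 1 - r)).take (n - 1 - (n - 1 - r))) = E.rot1 n x := by
    refine cat_congr fun r hr => ?_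
    rw [E.rotR, row_length hx (by omega), show n - 1 - (n - 1 - r) = r by omega,
      show n - (n - r) = r by omega]
  have h4 : (E.rot1 n x).length = n * n := by
    rw [← h3, cat_length (c := n)]
    intro r hr
    exact drop_take_length (row_length hx (by omega))
  rw [h3, show x.drop (n * n) = [] by rw [← hx, List.drop_length]] at h1
  refine (h1.seq ((Runs.flip (r := Y) (q := A) (by decide) _).seq
    (Runs.flip (r := A) (q := X) (by decide) _))).conv ?_ ?_
  · clear h1 hs0
    funext k
    cases k <;> simp [hA, hY, hn, zer, hq]
  · simp [hA, h4]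
    nlinarith

theorem rot2P_runs {s : Store R3 Bool} {n : ℕ} {x : List Bool} (hx : x.length = n * n)
    (hX : s X = x) (hn : s rn = zer n) (hq : s q = []) (hq' : s q' = []) (hY : s Y = [])
    (hA : s A = []) (hB : s B = []) :
    Runs rot2P s (update s X (E.rot2 n x)) (11 * (n * n) + 10 * n + 4) := by
  set row : ℕ → List Bool := fun i => (x.drop (i * n)).take n with hrow
  have hs0 : update (update s X (x.drop (0 * n))) Y (cat 0 fun j => (row j).drop (j + 1) ++
      (row j).take (j + 1)).reverse = s := by
    funext k
    cases k <;> simp [hX, cat_zero, hY]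
  have h1 := Runs.forR (r := rn) (q := q) (p := rot2row) (by decide) (a := false) (n := n)
    (fun i => update (update s X (x.drop (i * n))) Y (cat i fun j => (row j).drop (j + 1) ++
      (row j).take (j + 1)).reverse) (9 * n + 6)
    (by simpa [zer] using hn) (by simpa using hq)
    (by
      intro i hi
      have hl := row_length hx hi
      refine (rot2row_runs (k := i + 1) (l := n - 1 - i) (u := (row i).take (i + 1))
        (v := (row i).drop (i + 1)) (rest := x.drop ((i + 1) * n)) ?_ ?_ ?_ ?_ ?_ ?_ ?_
        ?_).conv ?_ (by omega)
      · rw [List.length_take, hl]; omega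
      · rw [List.length_drop, hl]; omega
      · simpa using row_split
      · simp [zer]
      · simp [zer]
      · simpa using hq'
      · simpa using hA
      · simpa using hB
      · funext k
        cases k <;> simp [cat_succ])
  simp only [hs0] at h1
  have h4 : (E.rot2 n x).length = n * n := by
    rw [E.rot2, cat_length (c := n)]
    intro r hr
    exact drop_take_length (row_length hx (by omega))
  rw [show x.drop (n * n) = [] by rw [← hx, List.drop_length],
    show (cat n fun j => (row j).drop (j + 1) ++ (row j).take (j + 1)) = E.rot2 n x from rfl] at h1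
  refine (h1.seq (Runs.flip (r := Y) (q := X) (by decide) _)).conv ?_ ?_
  · clear h1 hs0
    funext k
    cases k <;> simp [hY, hn, zer, hq]
  · simp [h4]
    nlinarith

/-! ### Transport to the registers of the main program -/

/-- Placement of the registers. -/
def emb3 : R3 → Reg
  | .X => .X | .Y => .t0 | .A => .t1 | .B => .t2 | .rn => .rn | .q => .t3 | .q' => .t4

theorem emb3_injective : Function.Injective emb3 := by
  intro a b h
  cases a <;> cases b <;> first | rfl | exact absurd h (by decide)

/-- **First rotation pass.** -/
noncomputable def ROT1 : Prog Reg Bool := rot1P.ren emb3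

/-- **Second rotation pass.** -/
noncomputable def ROT2 : Prog Reg Bool := rot2P.ren emb3

/-- **Specification of ROT1.** -/
theorem ROT1_runs {s : Store Reg Bool} {n : ℕ} (hX : (s .X).length = n * n) (hn : s .rn = zer n)
    (h0 : s .t0 = []) (h1 : s .t1 = []) (h2 : s .t2 = []) (h3 : s .t3 = []) (h4 : s .t4 = []) :
    Runs ROT1 s (update s .X (E.rot1 n (s .X))) (11 * (n * n) + 10 * n + 4) := by
  have h := (rot1P_runs (s := fun l => s (emb3 l)) (n := n) (x := s .X) hX rfl hn h3 h4 h0 h1
    h2).ren' emb3_injective s fun l => rfl
  refine h.conv ?_ le_rfl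
  rw [put_update emb3_injective, put_self emb3_injective]
  rfl

/-- **Specification of ROT2.** -/
theorem ROT2_runs {s : Store Reg Bool} {n : ℕ} (hX : (s .X).length = n * n) (hn : s .rn = zer n)
    (h0 : s .t0 = []) (h1 : s .t1 = []) (h2 : s .t2 = []) (h3 : s .t3 = []) (h4 : s .t4 = []) :
    Runs ROT2 s (update s .X (E.rot2 n (s .X))) (11 * (n * n) + 10 * n + 4) := by
  have h := (rot2P_runs (s := fun l => s (emb3 l)) (n := n) (x := s .X) hX rfl hn h3 h4 h0 h1
    h2).ren' emb3_injective s fun l => rfl
  refine h.conv ?_ le_rfl
  rw [put_update emb3_injective, put_self emb3_injective]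
  rfl

end Vale.Agent.P338.H763
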