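import Vale.Agent.P338.H763.Lib2
import Vale.Agent.P338.CoreSpec

/-!
# Filling a stack at the bottom
-/

set_option linter.unusedSectionVars false

namespace Vale.Agent.P338.FD

open Function (update)
open Vale.Agent.P338

/-! ### Filling -/

/-- Fill the stack `r` with zeros at the bottom, up to the height of the ruler `M`. -/
def fillB {R : Type} [DecidableEq R] (r t0 M t1 t2 : R) : Prog R Bool :=
  .seq (.flip r t0) (.seq (.padTo t0 M t1 t2 false) (.flip t0 r))

theorem fillB_runs {R : Type} [DecidableEq R] {r t0 M t1 t2 : R} (hr0 : r ≠ t0) (hr1 : r ≠ t1)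
    (hr2 : r ≠ t2) (hrM : r ≠ M) (h0M : t0 ≠ M) (h01 : t0 ≠ t1) (h02 : t0 ≠ t2) (hM1 : M ≠ t1)
    (hM2 : M ≠ t2) (h12 : t1 ≠ t2) {m : ℕ} {s : Store R Bool}
    (hM : s M = zer m) (h0 : s t0 = []) (h1 : s t1 = []) (h2 : s t2 = [])
    (hl : (s r).length ≤ m) :
    Runs (fillB r t0 M t1 t2) s (update s r (fillTo m (s r))) (16 * m + 14) := by
  have k1 := Runs.flip hr0 s
  have k2 := Runs.padTo (s := update (update s r []) t0 ((s r).reverse ++ s t0)) (dst := t0)
    (N1 := M) (N2 := t1) (tmp := t2) h0M h01 h02 hM1 hM2 h12 (t := false) (b := false) (m := m)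
    (by rw [Function.update_of_ne h0M.symm, Function.update_of_ne hrM.symm, hM]; rfl)
    (by rw [Function.update_of_ne h01.symm, Function.update_of_ne hr1.symm, h1])
    (by rw [Function.update_of_ne h02.symm, Function.update_of_ne hr2.symm, h2])
    (by rw [Function.update_self, h0, List.append_nil, List.length_reverse]; exact hl)
  have k3 := Runs.flip hr0.symm (update (update (update s r []) t0 ((s r).reverse ++ s t0)) t0
    (List.replicate (m - (update (update s r []) t0 ((s r).reverse ++ s t0) t0).length) false ++
      (update (update s r []) t0 ((s r).reverse ++ s t0) t0)))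
  refine (k1.seq (k2.seq k3)).conv ?_ ?_
  · funext x
    simp only [Function.update_self, h0, List.append_nil, List.length_reverse]
    by_cases hx : x = r
    · subst hx
      simp [fillTo, zer, hr0]
    · rw [Function.update_of_ne hx, Function.update_of_ne hx]
      by_cases hx0 : x = t0
      · subst hx0; rw [Function.update_self, h0]
      · rw [Function.update_of_ne hx0, Function.update_of_ne hx0, Function.update_of_ne hx0,
          Function.update_of_ne hx]
  · simp only [Function.update_self, h0, List.append_nil, List.length_reverse,
      List.length_append, List.length_replicate]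
    omega

end Vale.Agent.P338.FD
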