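import Vale.Agent.P338.H763.PassD
import Vale.Agent.P338.H763.FillB
import Vale.Agent.P338.H934.F2D
import Vale.Agent.P338.H931.CatLemmas
import Vale.Agent.P338.H51.RD

/-!
# Stage 2: assembly of the fast operation
-/

set_option linter.unusedSectionVars false

namespace Vale.Agent.P338.FD

open Function (update)
open Vale.Agent.P338

/-! ### Chunks -/

theorem words_eq {b p : ℕ} {X : List Bool} (h : X.length = (p - 1) * b * ((p - 1) * b)) :
    (cat (p - 1) fun i => cat ((p - 1) * b) (D.wordsOf b p X i)) = X := by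
  have h1 := cat_mul' (p - 1) ((p - 1) * b) fun q => (X.drop (q * b)).take b
  have h2 := cat_chunks X b ((p - 1) * ((p - 1) * b))
  rw [h1] at h2
  refine h2.trans (List.take_of_length_le ?_)
  rw [h]
  exact le_of_eq (by ring)

theorem slots_eq {W b p : ℕ} (P : List Bool) :
    (cat (2 * (p - 1)) fun r => cat ((p - 1) * b) (D.slotsOf W b p P r)) =
      P.take (2 * (p - 1) * ((p - 1) * b) * (2 * W)) := by
  have h1 := cat_mul' (2 * (p - 1)) ((p - 1) * b) fun q => (P.drop (q * (2 * W))).take (2 * W)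
  rw [← cat_chunks, h1]
  rfl

theorem idx2_lt {A B a b : ℕ} (ha : a < A) (hb : b < B) : a * B + b < A * B := by
  calc a * B + b < a * B + B := by omega
    _ = (a + 1) * B := by ring
    _ ≤ A * B := Nat.mul_le_mul_right _ ha

theorem words_length {b p : ℕ} {X : List Bool} (h : X.length = (p - 1) * b * ((p - 1) * b))
    {i w : ℕ} (hi : i < p - 1) (hw : w < (p - 1) * b) : (D.wordsOf b p X i w).length = b :=
  E.chunk_length (idx2_lt hi hw) (le_of_eq (by rw [h]; ring))

theorem slots_length {W b p : ℕ} {P : List Bool}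
    (h : 2 * (p - 1) * ((p - 1) * b) * (2 * W) ≤ P.length)
    {r w : ℕ} (hr : r < 2 * (p - 1)) (hw : w < (p - 1) * b) :
    (D.slotsOf W b p P r w).length = 2 * W :=
  E.chunk_length (idx2_lt hr hw) h

theorem f1_length {W b p om : ℕ} (x : ℕ → ℕ → List Bool) :
    (D.f1 W b p om x).length = 2 * ((p - 1) * ((p - 1) * b * (2 * W))) := by
  unfold D.f1
  rw [List.length_append, zer_length', cat_length' (p := (p - 1) * b * (2 * W)) fun i hi => ?_]
  · ring
  · exact cat_length' fun w hw => H763.mulS_length _ _ _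

theorem f2_length {W b p om : ℕ} (y : ℕ → ℕ → List Bool) :
    (D.f2 W b p om y).length = 2 * ((p - 1) * ((p - 1) * b * (2 * W))) := by
  unfold D.f2
  rw [List.length_append, zer_length', cat_length' (p := b * ((p - 1) * (2 * W))) fun i hi => ?_]
  · ring
  · exact cat_length' fun w hw => cat_length' fun d hd => H763.mulS_length _ _ _

theorem kernel_length {W b p : ℕ} (h : ℕ → ℕ) (hn : 0 < (p - 1) * b) :
    (D.kernel W b p h).length = 2 * ((p - 1) * ((p - 1) * b * (2 * W))) := by
  unfold D.kernel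
  rw [cat_length' (p := (p - 1) * b * (2 * W)) fun m hm => ?_]
  · ring
  · rw [List.length_append, zer_length', E.lbits_length']
    have : W ≤ (p - 1) * b * (2 * W) := by nlinarith
    omega

/-! ### Placement of the registers -/

/-- Placement of the registers of the passes F1, F3 and of the kernel program. -/
def place (I O tab : RD) : H763.RD → RD
  | .I => I | .Y => .t 0 | .O => O | .a => .t 1 | .b => .t 2 | .c => .t 3 | .tab => tab
  | .T => .t 4 | .mu => .nmu | .rs => .rs | .rn => .rn | .rB => .rb | .rW => .rW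
  | .rWb => .rWb | .rKR => .rZ | .r2s => .r2s | .rHZ => .rKZ | .q0 => .t 5 | .q1 => .t 6
  | .q2 => .t 7 | .tp => .t 8

theorem place_F1 : Function.Injective (place .X .cx .tT1) := by
  intro a b h
  cases a <;> cases b <;> first | rfl | exact absurd h (by decide)

theorem place_K1 : Function.Injective (place .X .cy .tH1) := by
  intro a b h
  cases a <;> cases b <;> first | rfl | exact absurd h (by decide)

theorem place_K2 : Function.Injective (place .X .cy .tH2) := by
  intro a b h
  cases a <;> cases b <;> first | rfl | exact absurd h (by decide)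

theorem place_F3 : Function.Injective (place .cz .X .tT3) := by
  intro a b h
  cases a <;> cases b <;> first | rfl | exact absurd h (by decide)

/-- Placement of the registers of F2. -/
def place2 : H934.F2D.RD → RD
  | .P => .cz | .out => .t 0 | .cx => .t 1 | .cy => .t 2 | .cz => .t 3 | .tmp => .t 4
  | .rowA => .t 5 | .rowB => .t 6 | .tab => .tT2 | .s2 => .t 7 | .q0 => .t 8 | .q1 => .t 9
  | .q2 => .t 10 | .q3 => .t 11 | .q4 => .t 12 | .rs => .rs | .rb => .rb | .rW => .rW
  | .rSR => .rZ | .res => .cx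

theorem place2_injective : Function.Injective place2 := by
  intro a b h
  cases a <;> cases b <;> first | rfl | exact absurd h (by decide)

/-! ### The stages -/

/-- The rulers used by the fast operation (`s = p - 1`). -/
structure RulV (v : DV) (W b s m : ℕ) : Prop where
  rs : v.rs = zer s
  rn : v.rn = zer (s * b)
  rb : v.rb = zer b
  rW : v.rW = zer W
  rWb : v.rWb = zer (W - b)
  rZ : v.rZ = zer (s * (s * b * (2 * W)))
  r2s : v.r2s = zer (2 * s)
  rKZ : v.rKZ = zer (s * b * (2 * W) - W)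
  rM : v.rM = zer m

section stages

variable {A : Machine} {v : DV} {W b p om m : ℕ}

theorem rulD (h : RulV v W b (p - 1) m) (I O tab : RD) :
    H763.RulD (place I O tab) v.st W b (p - 1) :=
  ⟨h.rs, h.rn, h.rb, h.rW, h.rWb, h.rZ, h.r2s, h.rKZ⟩

theorem scrD (I O tab : RD) (hO : v.st O = []) : H763.ScrD (place I O tab) v.st :=
  ⟨rfl, hO, rfl, rfl, rfl, rfl, rfl, rfl, rfl, rfl⟩

/-- cost of F1 -/
noncomputable def costF1 (A : Machine) (W b s : ℕ) : ℕ :=
  s * (s * b * (6 * mulTime A W + 73 * W + 14) + 9 * W + 10) + 5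

theorem F1_st (hA : Multiplies A) (h : RulV v W b (p - 1) m) (hb : b < W) (hp : p ≤ 2 ^ W)
    (hp0 : 1 < p) (hX : v.X.length = (p - 1) * b * ((p - 1) * b)) (hcx : v.cx = [])
    (htab : v.tT1 = cat (p - 1) fun i => lbits W (D.T1 p om i)) :
    LRuns ((H763.f1D A).ren (Sum.map (place .X .cx .tT1) id)) v.st
      ({ v with X := [], tT1 := [], cx := D.f1 W b p om (D.wordsOf b p v.X) } : DV).st
      (costF1 A W b (p - 1)) := by
  have h1 := H763.F1D_runs hA place_F1 (S := v.st) (x := D.wordsOf b p v.X) hb hp (by omega)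
    (rulD h _ _ _) (scrD _ _ _ hcx) (fun i hi w hw => words_length hX hi hw)
    (words_eq hX).symm htab
  refine h1.conv ?_ le_rfl
  show update (update (update v.st .X []) .tT1 []) .cx _ = _
  rw [DV.upd_X, DV.upd_tT1, DV.upd_cx]

/-- cost of the kernel program -/
def costK (W b s : ℕ) : ℕ := 2 * s * (7 * W + 7 * (s * b * (2 * W) - W) + 8) + 3

theorem K1_st (h : RulV v W b (p - 1) m) (hcy : v.cy = [])
    (htab : v.tH1 = cat (2 * (p - 1)) fun i => lbits W (D.H1 p om i)) :
    Runs (H763.kerDP.ren (place .X .cy .tH1)) v.st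
      ({ v with tH1 := [], cy := D.kernel W b p (D.H1 p om) } : DV).st (costK W b (p - 1)) := by
  have h1 := H763.kernelD_runs place_K1 (S := v.st) (rulD h _ _ _) (scrD _ _ _ hcy) htab
  refine h1.conv ?_ le_rfl
  show update (update v.st .tH1 []) .cy _ = _
  rw [DV.upd_tH1, DV.upd_cy]

theorem K2_st (h : RulV v W b (p - 1) m) (hcy : v.cy = [])
    (htab : v.tH2 = cat (2 * (p - 1)) fun i => lbits W (D.H2 p om i)) :
    Runs (H763.kerDP.ren (place .X .cy .tH2)) v.st
      ({ v with tH2 := [], cy := D.kernel W b p (D.H2 p om) } : DV).st (costK W b (p - 1)) := by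
  have h1 := H763.kernelD_runs place_K2 (S := v.st) (rulD h _ _ _) (scrD _ _ _ hcy) htab
  refine h1.conv ?_ le_rfl
  show update (update v.st .tH2 []) .cy _ = _
  rw [DV.upd_tH2, DV.upd_cy]

/-- Filling of `cx`. -/
def FX : Prog RD Bool := fillB .cx (.t 0) .rM (.t 1) (.t 2)

/-- Filling of `cy`. -/
def FY : Prog RD Bool := fillB .cy (.t 0) .rM (.t 1) (.t 2)

theorem FX_st (h : RulV v W b (p - 1) m) (hl : v.cx.length ≤ m) :
    Runs FX v.st ({ v with cx := fillTo m v.cx } : DV).st (16 * m + 14) := by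
  have h1 := fillB_runs (r := RD.cx) (t0 := .t 0) (M := .rM) (t1 := .t 1) (t2 := .t 2)
    (by decide) (by decide) (by decide) (by decide) (by decide) (by decide) (by decide) (by decide)
    (by decide) (by decide) (m := m) (s := v.st) h.rM rfl rfl rfl hl
  rw [DV.upd_cx] at h1
  exact h1

theorem FY_st (h : RulV v W b (p - 1) m) (hl : v.cy.length ≤ m) :
    Runs FY v.st ({ v with cy := fillTo m v.cy } : DV).st (16 * m + 14) := by
  have h1 := fillB_runs (r := RD.cy) (t0 := .t 0) (M := .rM) (t1 := .t 1) (t2 := .t 2)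
    (by decide) (by decide) (by decide) (by decide) (by decide) (by decide) (by decide) (by decide)
    (by decide) (by decide) (m := m) (s := v.st) h.rM rfl rfl rfl hl
  rw [DV.upd_cy] at h1
  exact h1

theorem call_st (hA : Multiplies A) (hm : 1 ≤ m) (hx : v.cx.length = m) (hy : v.cy.length = m)
    (hz : v.cz = []) :
    LRuns (callP A RD.cx RD.cy RD.cz) v.st
      ({ v with cx := [], cy := [], cz := mulL m v.cx v.cy } : DV).st
      (6 * mulTime A m + 40 * m) := by
  have h1 := LRuns.callP hA (x := RD.cx) (y := .cy) (out := .cz) (by decide) (by decide)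
    (by decide) (s := v.st) hm hx hy hz
  rw [DV.upd_cx, DV.upd_cy, DV.upd_cz] at h1
  exact h1

/-- cost of F2 -/
noncomputable def costF2 (A : Machine) (W b s r : ℕ) : ℕ :=
  6 * (s * s * b * mulTime A W) + 200 * (s * s * b * W) + 2 * r + 11

theorem F2_st (hA : Multiplies A) (h : RulV v W b (p - 1) m) (hb : b < W) (hb0 : 0 < b)
    (hp : p ≤ 2 ^ W) (hp0 : 1 < p) {rest : List Bool} {y : ℕ → ℕ → List Bool}
    (hy : ∀ r < 2 * (p - 1), ∀ w < (p - 1) * b, (y r w).length = 2 * W)
    (hz : v.cz = (cat (2 * (p - 1)) fun r => cat ((p - 1) * b) (y r)) ++ rest) (hcx : v.cx = [])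
    (htab : v.tT2 = cat (p - 1) fun k => cat (p - 1) fun d => lbits W (D.T2 p om k d)) :
    LRuns ((H934.F2D.mainP A).ren (Sum.map place2 id)) v.st
      ({ v with cz := [], tT2 := [], cx := D.f2 W b p om y } : DV).st
      (costF2 A W b (p - 1) rest.length) := by
  have h1 := H934.F2D.f2D_runs hA (t := ⟨v.cz, [], [], [], [], [], [], [], v.tT2, [], [], [], [],
    [], [], v.rs, v.rb, v.rW, v.rZ, []⟩) W b p om y rest (by omega) hb0 (by omega) hp hy hz htab
    rfl rfl rfl rfl rfl rfl rfl rfl h.rW h.rs rfl h.rb h.rZ rfl rfl rfl rfl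
  refine DV.lrun place2_injective h1 ?_ ?_ ?_
  · intro l
    cases l <;> first | rfl | exact hcx
  · intro l
    cases l <;> rfl
  · intro r hr
    have h2 := hr .P
    have h3 := hr .tab
    have h4 := hr .res
    cases r <;> first | rfl | exact absurd rfl h2 | exact absurd rfl h3 | exact absurd rfl h4

/-- cost of F3 -/
noncomputable def costF3 (A : Machine) (W b s r : ℕ) : ℕ :=
  s * (s * b * (12 * mulTime A W + 128 * W + 22) + 9 * W + 10) + 2 * r + 6

theorem F3_st (hA : Multiplies A) (h : RulV v W b (p - 1) m) (hb : b < W) (hp : p ≤ 2 ^ W)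
    (hp0 : 1 < p) {rest : List Bool} {y : ℕ → ℕ → List Bool}
    (hy : ∀ r < 2 * (p - 1), ∀ w < (p - 1) * b, (y r w).length = 2 * W)
    (hz : v.cz = (cat (2 * (p - 1)) fun r => cat ((p - 1) * b) (y r)) ++ rest) (hX : v.X = [])
    (htab : v.tT3 = cat (p - 1) fun j => lbits W (D.T3 p om b j))
    (hmu : v.nmu = lbits W (2 ^ W / p)) :
    LRuns ((H763.f3D A).ren (Sum.map (place .cz .X .tT3) id)) v.st
      ({ v with cz := [], tT3 := [], X := D.f3 W b p om y } : DV).st
      (costF3 A W b (p - 1) rest.length) := by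
  have h1 := H763.F3D_runs hA place_F3 (S := v.st) (y := y) hb hp hp0
    (rulD h _ _ _) (scrD _ _ _ hX) hy hz htab hmu
  refine h1.conv ?_ le_rfl
  show update (update (update v.st .cz []) .tT3 []) .X _ = _
  rw [DV.upd_cz, DV.upd_tT3, DV.upd_X]

end stages

/-! ### Assembly -/

/-- **The fast operation of stage 2.** -/
noncomputable def FASTD (A : Machine) : Prog (RD ⊕ Sim.AReg A) (Bool ⊕ Sim.ASym A) :=
  .seq ((H763.f1D A).ren (Sum.map (place .X .cx .tT1) id)) <|
  .seq (FX.lift _ _) <|
  .seq ((H763.kerDP.ren (place .X .cy .tH1)).lift _ _) <|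
  .seq (FY.lift _ _) <|
  .seq (callP A RD.cx RD.cy RD.cz) <|
  .seq ((H934.F2D.mainP A).ren (Sum.map place2 id)) <|
  .seq (FX.lift _ _) <|
  .seq ((H763.kerDP.ren (place .X .cy .tH2)).lift _ _) <|
  .seq (FY.lift _ _) <|
  .seq (callP A RD.cx RD.cy RD.cz)
    ((H763.f3D A).ren (Sum.map (place .cz .X .tT3) id))

theorem fillTo_length {m : ℕ} {l : List Bool} (h : l.length ≤ m) : (fillTo m l).length = m := by
  rw [fillTo, List.length_append, zer_length']
  omega

section main

variable {A : Machine} {v : DV} {W b p om m : ℕ}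

theorem RulV.upd {s : ℕ} (h : RulV v W b s m) (X cx cy cz t1 h1 t2 h2 t3 : List Bool) :
    RulV { v with
        X := X, cx := cx, cy := cy, cz := cz, tT1 := t1, tH1 := h1, tT2 := t2, tH2 := h2,
        tT3 := t3 } W b s m :=
  ⟨h.rs, h.rn, h.rb, h.rW, h.rWb, h.rZ, h.r2s, h.rKZ, h.rM⟩

/-- total cost, exact form -/
noncomputable def costFastD (A : Machine) (W b s m : ℕ) : ℕ :=
  costF1 A W b s + 4 * (16 * m + 14) + 2 * costK W b s + 2 * (6 * mulTime A m + 40 * m) +
    costF2 A W b s (2 * m) + costF3 A W b s (2 * m)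

theorem fastD_runs (hA : Multiplies A) (h : RulV v W b (p - 1) m) (hb : b < W) (hb0 : 0 < b)
    (hp : p ≤ 2 ^ W) (hp0 : 1 < p) (hX : v.X.length = (p - 1) * b * ((p - 1) * b))
    (hm : 4 * (p - 1) * ((p - 1) * b) * W ≤ m)
    (hcx : v.cx = []) (hcy : v.cy = []) (hcz : v.cz = [])
    (hT1 : v.tT1 = cat (p - 1) fun i => lbits W (D.T1 p om i))
    (hH1 : v.tH1 = cat (2 * (p - 1)) fun i => lbits W (D.H1 p om i))
    (hT2 : v.tT2 = cat (p - 1) fun k => cat (p - 1) fun d => lbits W (D.T2 p om k d))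
    (hH2 : v.tH2 = cat (2 * (p - 1)) fun i => lbits W (D.H2 p om i))
    (hT3 : v.tT3 = cat (p - 1) fun j => lbits W (D.T3 p om b j))
    (hmu : v.nmu = lbits W (2 ^ W / p)) :
    LRuns (FASTD A) v.st
      ({ v with X := D.fast m W b p om v.X, tT1 := [], tH1 := [], tT2 := [], tH2 := [], tT3 := [] } :
        DV).st (costFastD A W b (p - 1) m) := by
  have hn : 0 < (p - 1) * b := Nat.mul_pos (by omega) hb0
  have hl : 2 * ((p - 1) * ((p - 1) * b * (2 * W))) ≤ m := by
    refine le_trans (le_of_eq ?_) hm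
    ring
  have hl' : 2 * (p - 1) * ((p - 1) * b) * (2 * W) ≤ 2 * m := by
    refine le_trans (le_of_eq ?_) (hl.trans (by omega : m ≤ 2 * m))
    ring
  have hm1 : 1 ≤ m := by
    have : 0 < 2 * ((p - 1) * ((p - 1) * b * (2 * W))) := by
      have : 0 < p - 1 := by omega
      have : 0 < W := by omega
      positivity
    omega
  set L1 := D.f1 W b p om (D.wordsOf b p v.X) with hL1
  set L2 := D.kernel W b p (D.H1 p om) with hL2
  set P1 := mulL m (fillTo m L1) (fillTo m L2) with hP1
  set L3 := D.f2 W b p om (D.slotsOf W b p P1) with hL3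
  set L4 := D.kernel W b p (D.H2 p om) with hL4
  set P2 := mulL m (fillTo m L3) (fillTo m L4) with hP2
  have l1 : L1.length ≤ m := (f1_length _).trans_le hl
  have l2 : L2.length ≤ m := (kernel_length _ hn).trans_le hl
  have l3 : L3.length ≤ m := (f2_length _).trans_le hl
  have l4 : L4.length ≤ m := (kernel_length _ hn).trans_le hl
  have p1 : P1.length = 2 * m := H763.mulL_length _ _ _
  have p2 : P2.length = 2 * m := H763.mulL_length _ _ _
  have c1 : P1 = (cat (2 * (p - 1)) fun r => cat ((p - 1) * b) (D.slotsOf W b p P1 r)) ++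
      P1.drop (2 * (p - 1) * ((p - 1) * b) * (2 * W)) := by
    rw [slots_eq, List.take_append_drop]
  have c2 : P2 = (cat (2 * (p - 1)) fun r => cat ((p - 1) * b) (D.slotsOf W b p P2 r)) ++
      P2.drop (2 * (p - 1) * ((p - 1) * b) * (2 * W)) := by
    rw [slots_eq, List.take_append_drop]
  -- the stages
  have s1 := F1_st (om := om) hA h hb hp hp0 hX hcx hT1
  have s2 := FX_st (v := { v with X := [], tT1 := [], cx := L1 }) (W := W) (b := b) (p := p)
    (m := m) (h.upd _ _ _ _ _ _ _ _ _) l1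
  have s3 := K1_st (v := { v with X := [], tT1 := [], cx := fillTo m L1 }) (W := W) (b := b)
    (p := p) (m := m) (om := om) (h.upd _ _ _ _ _ _ _ _ _) hcy hH1
  have s4 := FY_st (v := { v with X := [], tT1 := [], tH1 := [], cx := fillTo m L1, cy := L2 })
    (W := W) (b := b) (p := p) (m := m) (h.upd _ _ _ _ _ _ _ _ _) l2
  have s5 := call_st (v := { v with
        X := [], tT1 := [], tH1 := [], cx := fillTo m L1, cy := fillTo m L2 }) hA hm1 (fillTo_length l1) (fillTo_length l2) hcz
  have s6 := F2_st (v := { v with X := [], tT1 := [], tH1 := [], cx := [], cy := [], cz := P1 })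
    (W := W) (b := b) (p := p) (m := m) (om := om) hA (h.upd _ _ _ _ _ _ _ _ _) hb hb0 hp hp0
    (rest := P1.drop (2 * (p - 1) * ((p - 1) * b) * (2 * W))) (y := D.slotsOf W b p P1)
    (fun r hr w hw => slots_length (hl'.trans p1.ge) hr hw) c1 rfl hT2
  have s7 := FX_st (v := { v with
        X := [], tT1 := [], tH1 := [], tT2 := [], cx := L3, cy := [], cz := [] }) (W := W) (b := b) (p := p) (m := m) (h.upd _ _ _ _ _ _ _ _ _) l3
  have s8 := K2_st (v := { v with
        X := [], tT1 := [], tH1 := [], tT2 := [], cx := fillTo m L3, cy := [], cz := [] }) (W := W) (b := b)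
    (p := p) (m := m) (om := om) (h.upd _ _ _ _ _ _ _ _ _) rfl hH2
  have s9 := FY_st (v := { v with
        X := [], tT1 := [], tH1 := [], tT2 := [], tH2 := [], cx := fillTo m L3, cy := L4,
        cz := [] })
    (W := W) (b := b) (p := p) (m := m) (h.upd _ _ _ _ _ _ _ _ _) l4
  have s10 := call_st (v := { v with
        X := [], tT1 := [], tH1 := [], tT2 := [], tH2 := [], cx := fillTo m L3,
        cy := fillTo m L4, cz := [] }) hA hm1 (fillTo_length l3)
    (fillTo_length l4) rfl
  have s11 := F3_st (v := { v with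
        X := [], tT1 := [], tH1 := [], tT2 := [], tH2 := [], cx := [], cy := [], cz := P2 })
    (W := W) (b := b) (p := p) (m := m) (om := om) hA (h.upd _ _ _ _ _ _ _ _ _) hb hp hp0
    (rest := P2.drop (2 * (p - 1) * ((p - 1) * b) * (2 * W))) (y := D.slotsOf W b p P2)
    (fun r hr w hw => slots_length (hl'.trans p2.ge) hr hw) c2 rfl hT3 hmu
  refine LRuns.conv (s1.seq ((LRuns.base s2).seq ((LRuns.base s3).seq ((LRuns.base s4).seq (s5.seq
    (s6.seq ((LRuns.base s7).seq ((LRuns.base s8).seq ((LRuns.base s9).seq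
    (s10.seq s11)))))))))) ?_ ?_
  · have e : D.f3 W b p om (D.slotsOf W b p P2) = D.fast m W b p om v.X := rfl
    rw [e]
    obtain ⟨⟩ := v
    simp only at hcx hcy hcz
    subst hcx hcy hcz
    rfl
  · simp only [costFastD, costF2, costF3, List.length_drop, p1, p2]
    omega

/-- Bound for the cost. -/
theorem costFastD_le {A : Machine} {W b s m : ℕ} (hs : 0 < s) (hb0 : 0 < b) (hW : 0 < W)
    (hm : 4 * s * (s * b) * W ≤ m) :
    costFastD A W b s m ≤
      12 * mulTime A m + 24 * (s * (s * b) * mulTime A W) + 400 * m := by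
  obtain ⟨Q, hQ⟩ : ∃ Q, Q = s * s * b * W := ⟨_, rfl⟩
  have hQm : 4 * Q ≤ m := by
    refine le_trans (le_of_eq ?_) hm
    rw [hQ]; ring
  have h1 : 1 ≤ Q := by
    rw [hQ]
    exact Nat.mul_pos (Nat.mul_pos (Nat.mul_pos hs hs) hb0) hW
  have a1 : s ≤ Q := by
    calc s = s * 1 * 1 * 1 := by ring
      _ ≤ s * s * b * W := by gcongr <;> omega
      _ = Q := hQ.symm
  have a2 : s * W ≤ Q := by
    calc s * W = s * 1 * 1 * W := by ring
      _ ≤ s * s * b * W := by gcongr <;> omega
      _ = Q := hQ.symm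
  have a3 : s * s * b ≤ Q := by
    calc s * s * b = s * s * b * 1 := by ring
      _ ≤ s * s * b * W := by gcongr; omega
      _ = Q := hQ.symm
  have k1 : costF1 A W b s = 6 * (s * (s * b) * mulTime A W) + 73 * Q + 14 * (s * s * b) +
      9 * (s * W) + 10 * s + 5 := by
    rw [costF1, hQ]; ring
  have k2 : costK W b s ≤ 14 * (s * W) + 28 * Q + 16 * s + 3 := by
    have : s * b * (2 * W) - W ≤ s * b * (2 * W) := Nat.sub_le _ _
    calc costK W b s ≤ 2 * s * (7 * W + 7 * (s * b * (2 * W)) + 8) + 3 := by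
          unfold costK; gcongr
      _ = 14 * (s * W) + 28 * Q + 16 * s + 3 := by rw [hQ]; ring
  have k3 : costF2 A W b s (2 * m) = 6 * (s * (s * b) * mulTime A W) + 200 * Q + 4 * m + 11 := by
    rw [costF2, hQ]; ring
  have k4 : costF3 A W b s (2 * m) = 12 * (s * (s * b) * mulTime A W) + 128 * Q +
      22 * (s * s * b) + 9 * (s * W) + 10 * s + 4 * m + 6 := by
    rw [costF3, hQ]; ring
  rw [costFastD, k1, k3, k4]
  omega

/-- **The fast operation of stage 2, final form.** -/
theorem FASTD_runs (hA : Multiplies A) (h : RulV v W b (p - 1) m) (hb : b < W) (hb0 : 0 < b)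
    (hp : p ≤ 2 ^ W) (hp0 : 1 < p) (hX : v.X.length = (p - 1) * b * ((p - 1) * b))
    (hm : 4 * (p - 1) * ((p - 1) * b) * W ≤ m)
    (hcx : v.cx = []) (hcy : v.cy = []) (hcz : v.cz = [])
    (hT1 : v.tT1 = cat (p - 1) fun i => lbits W (D.T1 p om i))
    (hH1 : v.tH1 = cat (2 * (p - 1)) fun i => lbits W (D.H1 p om i))
    (hT2 : v.tT2 = cat (p - 1) fun k => cat (p - 1) fun d => lbits W (D.T2 p om k d))
    (hH2 : v.tH2 = cat (2 * (p - 1)) fun i => lbits W (D.H2 p om i))
    (hT3 : v.tT3 = cat (p - 1) fun j => lbits W (D.T3 p om b j))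
    (hmu : v.nmu = lbits W (2 ^ W / p)) :
    LRuns (FASTD A) v.st
      ({ v with X := D.fast m W b p om v.X, tT1 := [], tH1 := [], tT2 := [], tH2 := [], tT3 := [] } :
        DV).st
      (12 * mulTime A m + 24 * ((p - 1) * ((p - 1) * b) * mulTime A W) + 400 * m) :=
  (fastD_runs hA h hb hb0 hp hp0 hX hm hcx hcy hcz hT1 hH1 hT2 hH2 hT3 hmu).weaken
    (costFastD_le (by omega) hb0 (by omega) hm)

end main

end Vale.Agent.P338.FD
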