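import Vale.Agent.P338.H763.Lib2
import Vale.Agent.P338.H666.Rename
import Vale.Agent.P338.CoreSpecE
import Vale.Agent.P338.Reg

/-!
# Program of pass F1 of the fast operation
-/

set_option linter.unusedSectionVars false

namespace Vale.Agent.P338.H763

open Function (update)
open Vale.Agent.P338

/-! ### Lists -/

theorem cat_zero (f : ℕ → List Bool) : cat 0 f = [] := rfl

theorem cat_succ (n : ℕ) (f : ℕ → List Bool) : cat (n + 1) f = cat n f ++ f n := by
  simp [cat, List.range_succ]

theorem cat_succ' (n : ℕ) (f : ℕ → List Bool) : cat (n + 1) f = f 0 ++ cat n fun i => f (i + 1) := by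
  simp [cat, List.range_succ_eq_map, List.flatMap_map]

/-- Splitting off the next piece of the input. -/
theorem cat_next {n i : ℕ} (hi : i < n) (f : ℕ → List Bool) :
    cat (n - i) (fun j => f (i + j)) = f i ++ cat (n - (i + 1)) (fun j => f (i + 1 + j)) := by
  obtain ⟨d, hd⟩ : ∃ d, n - i = d + 1 := ⟨n - i - 1, by omega⟩
  rw [hd, cat_succ', show n - (i + 1) = d by omega]
  congr 2
  funext j
  rw [show i + (j + 1) = i + 1 + j by omega]

theorem cat_length {n c : ℕ} {f : ℕ → List Bool} (h : ∀ i < n, (f i).length = c) :
    (cat n f).length = n * c := by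
  induction n with
  | zero => simp [cat_zero]
  | succ n ih =>
    rw [cat_succ, List.length_append, ih fun i hi => h i (by omega), h n (by omega)]
    ring

@[simp] theorem zer_length (n : ℕ) : (zer n).length = n := by simp [zer]

@[simp] theorem zer_reverse (n : ℕ) : (zer n).reverse = zer n := by simp [zer]

/-! ### Registers and program -/

/-- The registers of pass F1. -/
inductive R1 : Type
  | X | Y | cx | rn | rB | rK | r10 | rKR | rG | aA | aB | aC | ri | q0 | q1 | q2 | q3
  deriving DecidableEq

open R1 Prog

/-- One slot. -/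
def slotP : Prog R1 Bool :=
  .seq (fill aA q0 Y false) (.seq (xfer rB q0 X Y) (.seq (fill aB q0 Y false) (fill r10 q0 Y false)))

/-- One row of slots, then the exponent of the next row. -/
def rowP : Prog R1 Bool :=
  .seq (forR rn q1 slotP) (.seq (rotAdd aA aB aC ri q1) (push ri false))

/-- One group. -/
def groupP : Prog R1 Bool :=
  .seq (fill rK q1 aB false) (.seq (forR rK q2 rowP)
    (.seq (clear aA) (.seq (clear aB) (.seq (clear ri) (fill rKR q1 Y false)))))

/-- Pass F1. -/
def f1P : Prog R1 Bool := .seq (forR rG q3 groupP) (flip Y cx)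

theorem slotP_runs {s : Store R1 Bool} {b a : ℕ} {x rest : List Bool} (ha : a ≤ 2 * b)
    (hx : x.length = b) (hX : s X = x ++ rest) (hA : s aA = zer a) (hB : s aB = zer (2 * b - a))
    (hb : s rB = zer b) (h10 : s r10 = zer (10 * b)) (hq : s q0 = []) :
    Runs slotP s (update (update s X rest) Y ((E.slot1 b a x).reverse ++ s Y)) (65 * b + 8) := by
  have h1 := Runs.fill (s := s) (r := aA) (q := q0) (dst := Y) (by decide) (by decide) (by decide)
    (b := false) (n := a) hA hq
  have h2 := Runs.xfer (s := update s Y (List.replicate a false ++ s Y)) (r := rB) (q := q0)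
    (src := X) (dst := Y) (by decide) (by decide) (by decide) (by decide) (by decide) (by decide)
    (a := false) (n := b) (u := x) (v := rest) (by simpa [Function.update_apply, zer] using hb)
    (by simpa [Function.update_apply] using hq) (by simpa [Function.update_apply] using hX) hx
  have h3 := Runs.fill (s := update (update (update s Y (List.replicate a false ++ s Y)) X rest) Y
      (x.reverse ++ update s Y (List.replicate a false ++ s Y) Y)) (r := aB) (q := q0) (dst := Y)
      (by decide) (by decide) (by decide) (a := false)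
    (b := false) (n := 2 * b - a) (by simpa [Function.update_apply, zer] using hB)
    (by simpa [Function.update_apply] using hq)
  have h4 := Runs.fill (s := update (update (update (update s Y (List.replicate a false ++ s Y)) X
      rest) Y (x.reverse ++ update s Y (List.replicate a false ++ s Y) Y)) Y
      (List.replicate (2 * b - a) false ++ update (update (update s Y
        (List.replicate a false ++ s Y)) X rest) Y
      (x.reverse ++ update s Y (List.replicate a false ++ s Y) Y) Y)) (r := r10) (q := q0)
      (dst := Y) (by decide) (by decide) (by decide) (a := false)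
    (b := false) (n := 10 * b) (by simpa [Function.update_apply, zer] using h10)
    (by simpa [Function.update_apply] using hq)
  refine (h1.seq (h2.seq (h3.seq h4))).conv ?_ (by omega)
  clear h1 h2 h3 h4
  funext k
  cases k <;> simp [E.slot1, zer, List.append_assoc]
  rw [← List.append_assoc, List.replicate_append_replicate, Nat.add_comm]

theorem rowP_runs {s : Store R1 Bool} {n b a i : ℕ} {x : ℕ → List Bool} {rest : List Bool}
    (ha : a < 2 * b) (hi : i ≤ 2 * b)
    (hx : ∀ w < n, (x w).length = b) (hX : s X = cat n x ++ rest) (hA : s aA = zer a)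
    (hB : s aB = zer (2 * b - a)) (hC : s aC = []) (hI : s ri = zer i) (hn : s rn = zer n)
    (hb : s rB = zer b) (h10 : s r10 = zer (10 * b)) (h0 : s q0 = []) (h1 : s q1 = []) :
    Runs rowP s (update (update (update (update (update s X rest) Y
      ((cat n fun w => E.slot1 b a (x w)).reverse ++ s Y)) aA (zer ((a + i) % (2 * b))))
        aB (zer (2 * b - (a + i) % (2 * b)))) ri (zer (i + 1)))
      (n * (65 * b + 12) + 20 * b + 23) := by
  have hs0 : update (update s X (cat (n - 0) (fun w => x (0 + w)) ++ rest)) Y
      ((cat 0 fun w => E.slot1 b a (x w)).reverse ++ s Y) = s := by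
    funext k
    cases k <;> simp [hX, cat_zero]
  have e1 := Runs.forR (r := rn) (q := q1) (p := slotP) (by decide) (a := false) (n := n)
    (fun j => update (update s X (cat (n - j) (fun w => x (j + w)) ++ rest)) Y
      ((cat j fun w => E.slot1 b a (x w)).reverse ++ s Y)) (65 * b + 8)
    (by simpa [zer] using hn) (by simpa using h1)
    (by
      intro j hj
      refine (slotP_runs (b := b) (a := a) (x := x j)
        (rest := cat (n - (j + 1)) (fun w => x (j + 1 + w)) ++ rest) ha.le (hx j hj) ?_ ?_ ?_ ?_ ?_
        ?_).conv ?_ le_rfl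
      · simp [cat_next hj x]
      · simpa using hA
      · simpa using hB
      · simpa using hb
      · simpa using h10
      · simpa using h0
      · funext k
        cases k <;> simp [cat_succ])
  simp only [hs0] at e1
  have e2 := Runs.rotAdd (s := update (update (update (update s X (cat (n - n)
      (fun w => x (n + w)) ++ rest)) Y ((cat n fun w => E.slot1 b a (x w)).reverse ++ s Y))
      rn (List.replicate n false)) q1 []) (A := aA) (B := aB) (C := aC) (r := ri) (q := q1)
    (by decide) (by decide) (by decide) (by decide) (by decide) (by decide) (by decide) (by decide)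
    (by decide) (by decide) (t := false) (n := 2 * b) (a := a) (k := i) ha hi (by simpa [zer] using hA)
    (by simpa [zer] using hB) (by simpa using hC) (by simpa [zer] using hI) (by simp)
  refine (e1.seq (e2.seq (Runs.push ri false _))).conv ?_ (by
    rw [show 65 * b + 8 + 4 = 65 * b + 12 by ring]; omega)
  clear e1 e2
  funext k
  cases k <;> simp [cat_zero, zer, hn, h1, hI, List.replicate_succ]

theorem e1_zero (b : ℕ) : E.e1 b 0 = 0 := by simp [E.e1, ex]

theorem e1_lt {b : ℕ} (hb : 0 < b) (i : ℕ) : E.e1 b i < 2 * b := by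
  have h : (0 : ℤ) < 2 * (b : ℤ) := by positivity
  have h1 := Int.emod_lt_of_pos (((i * (i - 1) / 2 : ℕ) : ℤ)) h
  have h2 := Int.emod_nonneg (((i * (i - 1) / 2 : ℕ) : ℤ)) h.ne'
  simp only [E.e1, ex]
  omega

theorem e1_succ (b i : ℕ) : E.e1 b (i + 1) = (E.e1 b i + i) % (2 * b) := by
  have h : (i + 1) * (i + 1 - 1) / 2 = i * (i - 1) / 2 + i := by
    have h1 := Finset.sum_range_id_mul_two (i + 1)
    have h2 := Finset.sum_range_id_mul_two i
    rw [Finset.sum_range_succ] at h1
    omega
  simp only [E.e1, ex, h]
  norm_cast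
  simp [Nat.mod_add_mod]

/-- cost of one row -/
def costRow (n b : ℕ) : ℕ := n * (65 * b + 12) + 20 * b + 23

/-- cost of one group -/
def costGroup (n b : ℕ) : ℕ := 2 * b * (costRow n b + 4) + 5 * (2 * b * E.rowW n b) + 18 * b + 14

theorem groupP_runs {s : Store R1 Bool} {n b : ℕ} {x : ℕ → ℕ → List Bool} {rest : List Bool}
    (hb0 : 0 < b) (hx : ∀ i < 2 * b, ∀ w < n, (x i w).length = b)
    (hX : s X = (cat (2 * b) fun i => cat n (x i)) ++ rest) (hA : s aA = [])
    (hB : s aB = []) (hC : s aC = []) (hI : s ri = []) (hn : s rn = zer n)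
    (hb : s rB = zer b) (hK : s rK = zer (2 * b)) (h10 : s r10 = zer (10 * b))
    (hKR : s rKR = zer (2 * b * E.rowW n b)) (h0 : s q0 = []) (h1 : s q1 = []) (h2 : s q2 = []) :
    Runs groupP s (update (update s X rest) Y
      (((cat (2 * b) fun i => cat n fun w => E.slot1 b (E.e1 b i) (x i w)) ++
        zer (2 * b * E.rowW n b)).reverse ++ s Y)) (costGroup n b) := by
  have e1 := Runs.fill (s := s) (r := rK) (q := q1) (dst := aB) (by decide) (by decide) (by decide)
    (a := false) (b := false) (n := 2 * b) (by simpa [zer] using hK) h1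
  have hs0 : update (update (update (update (update s X (cat (2 * b - 0) (fun i => cat n (x (0 + i)))
      ++ rest)) Y ((cat 0 fun i => cat n fun w => E.slot1 b (E.e1 b i) (x i w)).reverse ++ s Y))
      aA (zer (E.e1 b 0))) aB (zer (2 * b - E.e1 b 0))) ri (zer 0) =
      update s aB (List.replicate (2 * b) false ++ s aB) := by
    funext k
    cases k <;> simp [hX, cat_zero, e1_zero, hA, hB, hI, zer]
  have e2 := Runs.forR (r := rK) (q := q2) (p := rowP) (by decide) (a := false) (n := 2 * b)
    (fun j => update (update (update (update (update s X (cat (2 * b - j)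
      (fun i => cat n (x (j + i))) ++ rest)) Y
      ((cat j fun i => cat n fun w => E.slot1 b (E.e1 b i) (x i w)).reverse ++ s Y))
      aA (zer (E.e1 b j))) aB (zer (2 * b - E.e1 b j))) ri (zer j)) (costRow n b)
    (by simpa [zer] using hK) (by simpa using h2)
    (by
      intro j hj
      refine (rowP_runs (n := n) (b := b) (a := E.e1 b j) (i := j) (x := x j)
        (rest := cat (2 * b - (j + 1)) (fun i => cat n (x (j + 1 + i))) ++ rest)
        (e1_lt hb0 j) hj.le (hx j hj) ?_ ?_ ?_ ?_ ?_ ?_ ?_ ?_ ?_ ?_).conv ?_ le_rfl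
      · simp [cat_next hj fun i => cat n (x i)]
      · simp
      · simp
      · simpa using hC
      · simp
      · simpa using hn
      · simpa using hb
      · simpa using h10
      · simpa using h0
      · simpa using h1
      · funext k
        cases k <;> simp [cat_succ, e1_succ])
  simp only [hs0] at e2
  have e3 := Runs.clear aA (update (update (update (update (update (update (update s X
    (cat (2 * b - 2 * b) (fun i => cat n (x (2 * b + i))) ++ rest)) Y
      ((cat (2 * b) fun i => cat n fun w => E.slot1 b (E.e1 b i) (x i w)).reverse ++ s Y))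
      aA (zer (E.e1 b (2 * b)))) aB (zer (2 * b - E.e1 b (2 * b)))) ri (zer (2 * b)))
      rK (List.replicate (2 * b) false)) q2 [])
  have e4 := Runs.clear aB (update (update (update (update (update (update (update (update s X
    (cat (2 * b - 2 * b) (fun i => cat n (x (2 * b + i))) ++ rest)) Y
      ((cat (2 * b) fun i => cat n fun w => E.slot1 b (E.e1 b i) (x i w)).reverse ++ s Y))
      aA (zer (E.e1 b (2 * b)))) aB (zer (2 * b - E.e1 b (2 * b)))) ri (zer (2 * b)))
      rK (List.replicate (2 * b) false)) q2 []) aA [])
  have e5 := Runs.clear ri (update (update (update (update (update (update (update (update (update s X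
    (cat (2 * b - 2 * b) (fun i => cat n (x (2 * b + i))) ++ rest)) Y
      ((cat (2 * b) fun i => cat n fun w => E.slot1 b (E.e1 b i) (x i w)).reverse ++ s Y))
      aA (zer (E.e1 b (2 * b)))) aB (zer (2 * b - E.e1 b (2 * b)))) ri (zer (2 * b)))
      rK (List.replicate (2 * b) false)) q2 []) aA []) aB [])
  have e6 := Runs.fill (s := update (update (update (update (update (update (update (update (update
    (update s X
    (cat (2 * b - 2 * b) (fun i => cat n (x (2 * b + i))) ++ rest)) Y
      ((cat (2 * b) fun i => cat n fun w => E.slot1 b (E.e1 b i) (x i w)).reverse ++ s Y))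
      aA (zer (E.e1 b (2 * b)))) aB (zer (2 * b - E.e1 b (2 * b)))) ri (zer (2 * b)))
      rK (List.replicate (2 * b) false)) q2 []) aA []) aB []) ri [])
      (r := rKR) (q := q1) (dst := Y) (by decide) (by decide) (by decide)
    (a := false) (b := false) (n := 2 * b * E.rowW n b) (by simpa [zer] using hKR) (by simpa using h1)
  refine (e1.seq (e2.seq (e3.seq (e4.seq (e5.seq e6))))).conv ?_ ?_
  · clear e1 e2 e3 e4 e5 e6 hs0
    funext k
    cases k <;> simp [cat_zero, zer, hK, hA, hB, hI, h2]
  · have h3 := e1_lt hb0 (2 * b)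
    simp only [costGroup]
    simp
    omega

theorem slot1_length {b a : ℕ} {x : List Bool} (ha : a ≤ 2 * b) (hx : x.length = b) :
    (E.slot1 b a x).length = 13 * b := by
  simp [E.slot1, hx]
  omega

theorem f1_length {n b Gr : ℕ} (hb : 0 < b) {x : ℕ → ℕ → ℕ → List Bool}
    (hx : ∀ g < Gr, ∀ i < 2 * b, ∀ w < n, (x g i w).length = b) :
    (E.f1 n b Gr x).length = Gr * (4 * b * E.rowW n b) := by
  refine cat_length fun g hg => ?_
  rw [List.length_append, zer_length, cat_length (c := E.rowW n b) fun i hi => ?_]
  · ring
  · rw [cat_length (c := 13 * b) fun w hw => slot1_length (e1_lt hb i).le (hx g hg i hi w hw)]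
    rfl

/-- **Pass F1**, over its own registers. -/
theorem f1P_runs {s : Store R1 Bool} {n b Gr : ℕ} {x : ℕ → ℕ → ℕ → List Bool}
    (hb0 : 0 < b) (hx : ∀ g < Gr, ∀ i < 2 * b, ∀ w < n, (x g i w).length = b)
    (hX : s X = E.wordS n b Gr x) (hY : s Y = []) (hc : s cx = []) (hA : s aA = [])
    (hB : s aB = []) (hC : s aC = []) (hI : s ri = []) (hn : s rn = zer n)
    (hb : s rB = zer b) (hK : s rK = zer (2 * b)) (h10 : s r10 = zer (10 * b))
    (hKR : s rKR = zer (2 * b * E.rowW n b)) (hG : s rG = zer Gr)
    (h0 : s q0 = []) (h1 : s q1 = []) (h2 : s q2 = []) (h3 : s q3 = []) :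
    Runs f1P s (update (update s X []) cx (E.f1 n b Gr x))
      (Gr * (costGroup n b + 4) + 2 * (Gr * (4 * b * E.rowW n b)) + 3) := by
  have hs0 : update (update s X ((cat (Gr - 0) fun g => cat (2 * b) fun i => cat n (x (0 + g) i))
      ++ [])) Y ((cat 0 fun g => (cat (2 * b) fun i => cat n fun w => E.slot1 b (E.e1 b i) (x g i w))
      ++ zer (2 * b * E.rowW n b)).reverse ++ s Y) = s := by
    funext k
    cases k <;> simp [hX, E.wordS, cat_zero]
  have e1 := Runs.forR (r := rG) (q := q3) (p := groupP) (by decide) (a := false) (n := Gr)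
    (fun j => update (update s X ((cat (Gr - j) fun g => cat (2 * b) fun i => cat n (x (j + g) i))
      ++ [])) Y ((cat j fun g => (cat (2 * b) fun i => cat n fun w => E.slot1 b (E.e1 b i) (x g i w))
      ++ zer (2 * b * E.rowW n b)).reverse ++ s Y)) (costGroup n b)
    (by simpa [zer] using hG) (by simpa using h3)
    (by
      intro j hj
      refine (groupP_runs (n := n) (b := b) (x := x j)
        (rest := (cat (Gr - (j + 1)) fun g => cat (2 * b) fun i => cat n (x (j + 1 + g) i)) ++ [])
        hb0 (hx j hj) ?_ ?_ ?_ ?_ ?_ ?_ ?_ ?_ ?_ ?_ ?_ ?_ ?_).conv ?_ le_rfl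
      · simp [cat_next hj fun g => cat (2 * b) fun i => cat n (x g i)]
      · simpa using hA
      · simpa using hB
      · simpa using hC
      · simpa using hI
      · simpa using hn
      · simpa using hb
      · simpa using hK
      · simpa using h10
      · simpa using hKR
      · simpa using h0
      · simpa using h1
      · simpa using h2
      · funext k
        cases k <;> simp [cat_succ])
  simp only [hs0] at e1
  have e2 := Runs.flip (r := Y) (q := cx) (by decide) (update (update (update (update s X
    ((cat (Gr - Gr) fun g => cat (2 * b) fun i => cat n (x (Gr + g) i))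
      ++ [])) Y ((cat Gr fun g => (cat (2 * b) fun i => cat n fun w => E.slot1 b (E.e1 b i) (x g i w))
      ++ zer (2 * b * E.rowW n b)).reverse ++ s Y)) rG (List.replicate Gr false)) q3 [])
  refine (e1.seq e2).conv ?_ ?_
  · clear e1 e2 hs0
    funext k
    cases k <;> simp [cat_zero, zer, hG, h3, hY, hc, E.f1]
  · have h4 := f1_length hb0 hx
    rw [E.f1] at h4
    simp [hY, -List.length_append, h4]
    omega

/-- Bound for the cost of F1. -/
theorem cost_le {n b Gr : ℕ} (hn : 0 < n) (hb : 0 < b) :
    Gr * (costGroup n b + 4) + 2 * (Gr * (4 * b * E.rowW n b)) + 3 ≤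
      600 * (Gr * (2 * b * (n * b))) + 3 := by
  have h1 : costRow n b ≤ 120 * (n * b) := by
    have h2 : n ≤ n * b := Nat.le_mul_of_pos_right _ hb
    have h3 : b ≤ n * b := Nat.le_mul_of_pos_left _ hn
    have h4 : n * (65 * b + 12) = 65 * (n * b) + 12 * n := by ring
    simp only [costRow]
    omega
  have h5 : b ≤ 2 * b * (n * b) := by nlinarith [Nat.mul_pos hn hb]
  have h6 : costGroup n b ≤ 300 * (2 * b * (n * b)) := by
    have h7 : 2 * b * E.rowW n b = 13 * (2 * b * (n * b)) := by simp only [E.rowW]; ring
    have h8 : 2 * b * (costRow n b + 4) ≤ 124 * (2 * b * (n * b)) := by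
      calc 2 * b * (costRow n b + 4) ≤ 2 * b * (124 * (n * b)) := by
            have : 1 ≤ n * b := Nat.mul_pos hn hb
            exact Nat.mul_le_mul_left _ (by omega)
        _ = _ := by ring
    simp only [costGroup, h7]
    omega
  have h9 : Gr * (4 * b * E.rowW n b) = 26 * (Gr * (2 * b * (n * b))) := by
    simp only [E.rowW]; ring
  have h10 : Gr * (costGroup n b + 4) ≤ Gr * (304 * (2 * b * (n * b))) :=
    Nat.mul_le_mul_left _ (by omega)
  have h11 : Gr * (304 * (2 * b * (n * b))) = 304 * (Gr * (2 * b * (n * b))) := by ring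
  omega

/-! ### Transport to the registers of the main program -/

/-- Placement of the registers. -/
def emb1 : R1 → Reg
  | .X => .X | .Y => .t0 | .cx => .cx | .rn => .rn | .rB => .rB | .rK => .rK | .r10 => .r10b
  | .rKR => .rKR | .rG => .rG | .aA => .aA | .aB => .aB | .aC => .t1 | .ri => .t2 | .q0 => .t3
  | .q1 => .t4 | .q2 => .t5 | .q3 => .t6

theorem emb1_injective : Function.Injective emb1 := by
  intro a b h
  cases a <;> cases b <;> first | rfl | exact absurd h (by decide)

/-- **Pass F1.** -/
noncomputable def F1 : Prog Reg Bool := f1P.ren emb1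

/-- **Specification of pass F1.** -/
theorem F1_runs {s : Store Reg Bool} {n b Gr : ℕ} {x : ℕ → ℕ → ℕ → List Bool}
    (hn0 : 0 < n) (hb0 : 0 < b) (hx : ∀ g < Gr, ∀ i < 2 * b, ∀ w < n, (x g i w).length = b)
    (hX : s .X = E.wordS n b Gr x) (hc : s .cx = []) (hn : s .rn = zer n)
    (hb : s .rB = zer b) (hK : s .rK = zer (2 * b)) (h10 : s .r10b = zer (10 * b))
    (hKR : s .rKR = zer (2 * b * E.rowW n b)) (hG : s .rG = zer Gr)
    (hA : s .aA = []) (hB : s .aB = []) (h0 : s .t0 = []) (h1 : s .t1 = []) (h2 : s .t2 = [])
    (h3 : s .t3 = []) (h4 : s .t4 = []) (h5 : s .t5 = []) (h6 : s .t6 = []) :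
    Runs F1 s (update (update s .X []) .cx (E.f1 n b Gr x))
      (600 * (Gr * (2 * b * (n * b))) + 3) := by
  have h := (f1P_runs (s := fun l => s (emb1 l)) (n := n) (b := b) (Gr := Gr) (x := x) hb0 hx
    hX h0 hc hA hB h1 h2 hn hb hK h10 hKR hG h3 h4 h5 h6).ren' emb1_injective s fun l => rfl
  refine h.conv ?_ (cost_le hn0 hb0)
  rw [put_update emb1_injective, put_update emb1_injective, put_self emb1_injective]
  rfl

end Vale.Agent.P338.H763
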