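import Vale.Agent.P338.H763.F1
import Vale.Agent.P338.H931.Parts

/-!
# Pass F1 in the form of the interface `Parts`
-/

namespace Vale.Agent.P338.H763

open Function (update)
open Vale.Agent.P338

/-- Pass F1, interface form. -/
theorem F1_part (s : Store Reg Bool) (mu n Gr m : ℕ) (x : ℕ → ℕ → ℕ → List Bool)
    (hn : n = 2 * 2 ^ mu * 2 ^ mu * Gr) (hG : 0 < Gr) (hm : n * n ≤ m) (ht : TmpClean s)
    (hr : Rul s n (2 ^ mu)) (hc : s .cx = [])
    (hx : ∀ g i w, g < Gr → i < 2 * 2 ^ mu → w < n → (x g i w).length = 2 ^ mu)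
    (hX : s .X = E.wordS n (2 ^ mu) Gr x) :
    Runs F1 s (update (update s .X []) .cx (E.f1 n (2 ^ mu) Gr x)) (603 * m) := by
  have hb : 0 < 2 ^ mu := by positivity
  have hn0 : 0 < n := by rw [hn]; positivity
  have hGr : n / (2 * 2 ^ mu * 2 ^ mu) = Gr := by
    rw [hn, Nat.mul_div_cancel_left _ (by positivity)]
  refine (F1_runs (n := n) (b := 2 ^ mu) (Gr := Gr) hn0 hb
    (fun g hg i hi w hw => hx g i w hg hi hw) hX hc hr.rn hr.rB hr.rK hr.r10b hr.rKR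
    (hGr ▸ hr.rG) (ht _ rfl) (ht _ rfl) (ht _ rfl) (ht _ rfl) (ht _ rfl) (ht _ rfl) (ht _ rfl)
    (ht _ rfl) (ht _ rfl)).weaken ?_
  have h1 : Gr * (2 * 2 ^ mu * (n * 2 ^ mu)) = n * n := by
    calc Gr * (2 * 2 ^ mu * (n * 2 ^ mu)) = (2 * 2 ^ mu * 2 ^ mu * Gr) * n := by ring
      _ = n * n := by rw [← hn]
  rw [h1]
  have : 1 ≤ n * n := Nat.mul_pos hn0 hn0
  omega

end Vale.Agent.P338.H763
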