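import Vale.Agent.P338.H463.CallU
import Vale.Agent.P338.H763.Lib2
import Vale.Agent.P338.H666.Rename

/-!
# Programs with inner calls

`LRuns p s s' c`: the program `p` over the registers `R ⊕ Y` and the symbols `Γ ⊕ Z` runs from
the base store `s` to the base store `s'`, all other stacks being empty before and after.
-/

set_option linter.unusedSectionVars false

namespace Vale.Agent.P338

open Function (update)

variable {R R' Y Γ Z : Type}

/-- Run between lifted base stores. -/
def LRuns (p : Prog (R ⊕ Y) (Γ ⊕ Z)) (s s' : Store R Γ) (c : ℕ) : Prop :=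
  Runs p (liftStore s fun _ => []) (liftStore s' fun _ => []) c

theorem liftStore_update [DecidableEq R] [DecidableEq Y] (s : Store R Γ) (u : Y → List (Γ ⊕ Z))
    (r : R) (l : List Γ) :
    liftStore (update s r l) u = update (liftStore s u) (Sum.inl r) (l.map Sum.inl) := by
  funext x
  rcases x with x | y
  · by_cases h : x = r
    · subst h; simp [liftStore]
    · simp [liftStore, h]
  · simp [liftStore]

namespace LRuns

variable {p q : Prog (R ⊕ Y) (Γ ⊕ Z)} {s s' s₁ s₂ : Store R Γ} {c c' c₁ c₂ : ℕ}

/-- A base program. -/
theorem base {p : Prog R Γ} (h : Runs p s s' c) : LRuns (p.lift Y Z) s s' c := h.lift _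

theorem seq (h₁ : LRuns p s s₁ c₁) (h₂ : LRuns q s₁ s₂ c₂) : LRuns (.seq p q) s s₂ (c₁ + c₂) :=
  Runs.seq h₁ h₂

theorem weaken (h : LRuns p s s' c) (hc : c ≤ c') : LRuns p s s' c' := Runs.weaken h hc

theorem conv (h : LRuns p s s₁ c) (hs : s₁ = s') (hc : c ≤ c') : LRuns p s s' c' := by
  subst hs; exact h.weaken hc

variable [DecidableEq R] [DecidableEq Y]

/-- For loop over a ruler with `n` equal symbols, variable cost. -/
theorem forR_sum {r q : R} (hrq : r ≠ q) {a : Γ} {n : ℕ} (T : ℕ → Store R Γ) (c : ℕ → ℕ)
    (hr : (T 0) r = List.replicate n a) (hq : (T 0) q = [])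
    (h : ∀ i < n,
      LRuns p (update (update (T i) r (List.replicate (n - 1 - i) a)) q (List.replicate (i + 1) a))
        (update (update (T (i + 1)) r (List.replicate (n - 1 - i) a)) q
          (List.replicate (i + 1) a)) (c i)) :
    LRuns (.forR (.inl r) (.inl q) p) (T 0) (update (update (T n) r (List.replicate n a)) q [])
      ((∑ i ∈ Finset.range n, c i) + 4 * n + 2) := by
  have h1 := Runs.forR_sum (p := p) (r := Sum.inl r) (q := Sum.inl q) (by simpa using hrq)
    (a := Sum.inl a) (n := n) (fun i => liftStore (T i) fun _ => []) c (by simp [liftStore, hr])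
    (by simp [liftStore, hq]) (by
      intro i hi
      have := h i hi
      simpa only [LRuns, liftStore_update, List.map_replicate] using this)
  simpa only [LRuns, liftStore_update, List.map_replicate, List.map_nil] using h1

/-- For loop over a ruler with `n` equal symbols, constant cost of the body. -/
theorem forR {r q : R} (hrq : r ≠ q) {a : Γ} {n : ℕ} (T : ℕ → Store R Γ) (c : ℕ)
    (hr : (T 0) r = List.replicate n a) (hq : (T 0) q = [])
    (h : ∀ i < n,
      LRuns p (update (update (T i) r (List.replicate (n - 1 - i) a)) q (List.replicate (i + 1) a))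
        (update (update (T (i + 1)) r (List.replicate (n - 1 - i) a)) q
          (List.replicate (i + 1) a)) c) :
    LRuns (.forR (.inl r) (.inl q) p) (T 0) (update (update (T n) r (List.replicate n a)) q [])
      (n * (c + 4) + 2) := by
  refine (forR_sum hrq T (fun _ => c) hr hq h).weaken ?_
  rw [Finset.sum_const, Finset.card_range, smul_eq_mul]
  nlinarith

omit [DecidableEq R] [DecidableEq Y] in
/-- Transport along an injective map of the base registers. -/
theorem ren {e : R → R'} (he : Function.Injective e) (h : LRuns p s s' c) (S : Store R' Γ)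
    (hS : ∀ r, S (e r) = s r) : LRuns (p.ren (Sum.map e id)) S (put e s' S) c := by
  have he' : Function.Injective (Sum.map e (id : Y → Y)) :=
    Function.Injective.sumMap he Function.injective_id
  have h1 := Runs.ren' he' h (liftStore S fun _ => []) (by
    rintro (l | l)
    · simp [liftStore, hS]
    · rfl)
  have h2 : put (Sum.map e id) (liftStore s' fun _ : Y => ([] : List (Γ ⊕ Z)))
      (liftStore S fun _ => []) = liftStore (put e s' S) fun _ => [] := by
    funext x
    rcases x with x | y
    · by_cases hx : ∃ l, e l = x
      · obtain ⟨l, rfl⟩ := hx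
        have := put_apply he' (liftStore s' fun _ : Y => ([] : List (Γ ⊕ Z)))
          (liftStore S fun _ => []) (Sum.inl l)
        simpa [liftStore, put_apply he] using this
      · rw [put_of_not]
        · simp [liftStore, put_of_not _ _ hx]
        · rintro ⟨l | l, hl⟩
          · exact hx ⟨l, by simpa using hl⟩
          · simp at hl
    · have := put_apply he' (liftStore s' fun _ : Y => ([] : List (Γ ⊕ Z)))
        (liftStore S fun _ => []) (Sum.inr y)
      simpa [liftStore] using this
  rwa [h2] at h1

end LRuns

/-- The call of `A` over any register type. -/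
def callP (A : Machine) {P : Type} [DecidableEq P] (x y out : P) :
    Prog (P ⊕ Sim.AReg A) (Bool ⊕ Sim.ASym A) :=
  Sim.callU (Sim.symI A) x y out

theorem LRuns.callP {A : Machine} (hA : Multiplies A) {P : Type} [DecidableEq P] {x y out : P}
    (hxy : x ≠ y) (hxo : x ≠ out) (hyo : y ≠ out) {m : ℕ} (hm : 1 ≤ m) {s : Store P Bool}
    (hx : (s x).length = m) (hy : (s y).length = m) (hz : s out = []) :
    LRuns (callP A x y out) s (update (update (update s x []) y []) out (mulL m (s x) (s y)))
      (6 * mulTime A m + 40 * m) := by
  have h := Sim.callU_runs (Sim.symI A) hA (x := x) (y := y) (out := out)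
    (by simp [hxy, hxo, hyo]) hm
    (s x) (s y) hx hy (fun r => (s r).map Sum.inl) rfl rfl (by simp [hz])
  have e1 : ∀ (s : Store P Bool) (r : P), Function.update
      (fun r => (s r).map (Sum.inl : Bool → Bool ⊕ Sim.ASym A)) r [] =
      fun q => (Function.update s r [] q).map Sum.inl := by
    intro s r
    funext q
    by_cases h : q = r
    · subst h; simp
    · simp [h]
  have e3 : ∀ (s : Store P Bool) (r : P) (l : List Bool), Function.update
      (fun r => (s r).map (Sum.inl : Bool → Bool ⊕ Sim.ASym A)) r (l.map (Sim.symI A).bit) =
      fun q => (Function.update s r l q).map Sum.inl := by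
    intro s r l
    funext q
    by_cases h : q = r
    · subst h
      rw [Function.update_self, Function.update_self]
      rfl
    · simp [h]
  have e4 : ∀ s : Store P Bool, (Sim.own (fun r => (s r).map Sum.inl) :
      Store (P ⊕ Sim.AReg A) (Bool ⊕ Sim.ASym A)) = liftStore s (fun _ => []) := by
    intro s
    funext r
    rcases r with q | r <;> rfl
  simp only [e1, e3, e4] at h
  exact h

end Vale.Agent.P338
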