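import Vale.Agent.P338.H763.HalfList
import Vale.Agent.P338.H763.FillB
import Vale.Agent.P338.H763.LiftLib

/-!
# Stage 3: one multiplication of size `m` by four multiplications of size `(m+1)/2`
-/

set_option linter.unusedSectionVars false
set_option linter.constructorNameAsVariable false

namespace Vale.Agent.P338.HF

open Function (update)
open Vale.Agent.P338

/-- Registers of the program. -/
inductive HR : Type
  | X | Y | x0 | y0 | a | b | P0 | P1 | P2 | P3 | rh | par | q | T | t1 | t2 | Z | C | O
  deriving DecidableEq

instance : Finite HR := by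
  refine Finite.of_surjective (fun n : Fin 19 => HR.ofNat n) fun r => ?_
  cases r <;> exact ⟨⟨_, by decide⟩, HR.ofNat_ctorIdx _⟩

open HR Prog

theorem zer_length'' (n : ℕ) : (zer n).length = n := List.length_replicate

/-! ### Half of the length -/

/-- One tick. -/
def cntBody : Prog HR Bool :=
  .seq (mv T X) (peek par fun o => if o.isSome then pop par else .seq (push par false) (push rh false))

/-- `rh := (m+1)/2`, `par := m % 2`. -/
def cntP : Prog HR Bool := .seq (flip X T) (whileNE T cntBody)

theorem cntP_runs {s : Store HR Bool} {m : ℕ} (hX : (s X).length = m) (hT : s T = [])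
    (hp : s par = []) (hr : s rh = []) :
    Runs cntP s (update (update s par (zer (m % 2))) rh (zer ((m + 1) / 2))) (7 * m + 2) := by
  set x := s X with hx
  have h1 := Runs.flip (r := X) (q := T) (by decide) s
  rw [← hx] at h1
  have h2 := Runs.loop_family (t := fun t => (t T).isSome) (body := cntBody)
    (fun i => update (update (update (update s T (x.reverse.drop i)) X (x.reverse.take i).reverse)
      par (zer (i % 2))) rh (zer ((i + 1) / 2))) m (fun _ => 4)
    (by
      intro i hi
      have hi' : i < x.reverse.length := by simpa [hX] using hi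
      simp only [Store.tops]
      rw [Function.update_of_ne (by decide), Function.update_of_ne (by decide),
        Function.update_of_ne (by decide), Function.update_self, List.drop_eq_getElem_cons hi']
      rfl)
    (by
      simp only [Store.tops]
      rw [Function.update_of_ne (by decide), Function.update_of_ne (by decide),
        Function.update_of_ne (by decide), Function.update_self, ← hX, ← List.length_reverse,
        List.drop_length]
      rfl)
    (by
      intro i hi
      have hi' : i < x.reverse.length := by simpa [hX] using hi
      have h5 : (x.reverse.take (i + 1)).reverse = x.reverse[i] :: (x.reverse.take i).reverse := by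
        rw [List.take_succ_eq_append_getElem hi', List.reverse_append]; rfl
      have h3 : update (update (update (update s T (x.reverse.drop i)) X
          (x.reverse.take i).reverse) par (zer (i % 2))) rh (zer ((i + 1) / 2)) T =
          x.reverse[i] :: x.reverse.drop (i + 1) := by
        rw [Function.update_of_ne (by decide), Function.update_of_ne (by decide),
          Function.update_of_ne (by decide), Function.update_self, List.drop_eq_getElem_cons hi']
      refine ((Runs.mv_cons (r := T) (q := X) (by decide) h3).seq (Runs.peek (c := 2) ?_)).weaken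
        (by omega)
      simp only [h5]
      clear h3 h5
      rcases Nat.mod_two_eq_zero_or_one i with he | he
      · have e1 : (i + 1) % 2 = 1 := by omega
        have e2 : (i + 1 + 1) / 2 = (i + 1) / 2 + 1 := by omega
        have e3 : (update (update (update (update (update (update s T (x.reverse.drop i)) X
          (x.reverse.take i).reverse) par (zer (i % 2))) rh (zer ((i + 1) / 2))) T
            (x.reverse.drop (i + 1))) X (x.reverse[i] :: update (update (update (update s T
            (x.reverse.drop i)) X (x.reverse.take i).reverse) par (zer (i % 2))) rh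
            (zer ((i + 1) / 2)) X) par) = [] := by simp [he, zer]
        rw [e3]
        simp only [List.head?_nil, Option.isSome_none, Bool.false_eq_true, if_false]
        refine ((Runs.push par false _).seq (Runs.push rh false _)).conv ?_ le_rfl
        rw [e1, e2, he]
        funext k
        cases k <;> simp [zer, List.replicate_succ]
      · have e1 : (i + 1) % 2 = 0 := by omega
        have e2 : (i + 1 + 1) / 2 = (i + 1) / 2 := by omega
        have e3 : (update (update (update (update (update (update s T (x.reverse.drop i)) X
          (x.reverse.take i).reverse) par (zer (i % 2))) rh (zer ((i + 1) / 2))) T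
            (x.reverse.drop (i + 1))) X (x.reverse[i] :: update (update (update (update s T
            (x.reverse.drop i)) X (x.reverse.take i).reverse) par (zer (i % 2))) rh
            (zer ((i + 1) / 2)) X) par) = [false] := by simp [he, zer]
        rw [e3]
        simp only [List.head?_cons, Option.isSome_some, if_true]
        refine (Runs.pop par _).conv ?_ (by omega)
        rw [e1, e2, he]
        funext k
        cases k <;> simp [zer])
  have h0 : update (update (update (update s T (x.reverse.drop 0)) X (x.reverse.take 0).reverse)
      par (zer (0 % 2))) rh (zer ((0 + 1) / 2)) =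
      update (update s X []) T (x.reverse ++ s T) := by
    funext k
    cases k <;> simp [hT, hp, hr, zer]
  simp only [h0] at h2
  refine (h1.seq h2).conv ?_ ?_
  · have e1 : x.reverse.take m = x.reverse := by rw [← hX, ← List.length_reverse, List.take_length]
    have e2 : x.reverse.drop m = [] := by rw [← hX, ← List.length_reverse, List.drop_length]
    rw [e1, e2, List.reverse_reverse]
    funext k
    cases k <;> simp [hT, hx]
  · rw [hX, Finset.sum_const, Finset.card_range, smul_eq_mul]
    omega

/-! ### Splitting -/

/-- Split an operand: `D0 :=` first `h` bits of `D`, `D :=` the others, filled up to `h` bits. -/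
def splitP (D D0 : HR) : Prog HR Bool :=
  .seq (xfer rh q D T) (.seq (flip T D0) (FD.fillB D T rh t1 t2))

theorem splitP_runs {D D0 : HR} (hD : (D = X ∧ D0 = x0) ∨ (D = Y ∧ D0 = y0)) {s : Store HR Bool}
    {h : ℕ} {x : List Bool} (hx : s D = x) (hl : h ≤ x.length) (hl' : x.length ≤ 2 * h)
    (hr : s rh = zer h) (hq : s q = []) (hT : s T = []) (h1 : s t1 = []) (h2 : s t2 = [])
    (hD0 : s D0 = []) :
    Runs (splitP D D0) s (update (update s D (up h x)) D0 (x.take h)) (23 * h + 17) := by
  obtain ⟨n1, n2, n3, n4, n5, n6, n7, n8, n9, n10, n11, n12⟩ : D ≠ D0 ∧ rh ≠ D ∧ q ≠ D ∧ D ≠ T ∧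
      T ≠ D0 ∧ D ≠ t1 ∧ D ≠ t2 ∧ D ≠ rh ∧ D0 ≠ t1 ∧ D0 ≠ t2 ∧ D0 ≠ rh ∧ D0 ≠ q := by
    rcases hD with ⟨rfl, rfl⟩ | ⟨rfl, rfl⟩ <;> decide
  have e1 : s D = x.take h ++ x.drop h := by rw [List.take_append_drop, hx]
  have k1 := Runs.xfer (s := s) (r := rh) (q := q) (src := D) (dst := T) (by decide) n2 (by decide)
    n3 (by decide) n4 (a := false) (n := h) hr hq e1 (by simp [hl])
  have k2 := Runs.flip (r := T) (q := D0) n5 (update (update s D (x.drop h)) T
    ((x.take h).reverse ++ s T))
  have k3 := FD.fillB_runs (r := D) (t0 := T) (M := rh) (t1 := t1) (t2 := t2) n4 n6 n7 n8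
    (by decide) (by decide) (by decide) (by decide) (by decide) (by decide) (m := h)
    (s := update (update (update (update s D (x.drop h)) T
    ((x.take h).reverse ++ s T)) T []) D0 ((update (update s D (x.drop h)) T
    ((x.take h).reverse ++ s T) T).reverse ++ update (update s D (x.drop h)) T
    ((x.take h).reverse ++ s T) D0))
    (by rw [Function.update_of_ne n11.symm, Function.update_of_ne (by decide),
          Function.update_of_ne (by decide), Function.update_of_ne n2, hr])
    (by rw [Function.update_of_ne n5, Function.update_self])
    (by rw [Function.update_of_ne n9.symm, Function.update_of_ne (by decide),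
          Function.update_of_ne (by decide), Function.update_of_ne n6.symm, h1])
    (by rw [Function.update_of_ne n10.symm, Function.update_of_ne (by decide),
          Function.update_of_ne (by decide), Function.update_of_ne n7.symm, h2])
    (by rw [Function.update_of_ne n1, Function.update_of_ne n4, Function.update_of_ne n4,
          Function.update_self, List.length_drop]; omega)
  refine (k1.seq (k2.seq k3)).conv ?_ ?_
  · clear k1 k2 k3
    rcases hD with ⟨rfl, rfl⟩ | ⟨rfl, rfl⟩
    · funext k
      cases k <;> simp [hT, hD0, up]
    · funext k
      cases k <;> simp [hT, hD0, up]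
  · rw [Function.update_self, hT]
    simp [hl]
    omega

/-! ### Addition of three numbers -/

/-- The carry as a stack. -/
def enc : ℕ → List Bool
  | 0 => []
  | 1 => [false]
  | _ => [true]

/-- The carry from the top of its stack. -/
def dec : Option Bool → ℕ
  | none => 0
  | some false => 1
  | some true => 2

theorem dec_enc {c : ℕ} (hc : c ≤ 2) : dec (enc c).head? = c := by
  interval_cases c <;> rfl

/-- Change of the carry. -/
def carryOp : Option Bool → ℕ → Op Bool
  | none, 0 => .nop
  | none, 1 => .push false
  | none, _ => .push true
  | some _, 0 => .pop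
  | some _, 1 => .rep false
  | some _, _ => .rep true

theorem carryOp_app {c c' : ℕ} (hc : c ≤ 2) (hc' : c' ≤ 2) :
    (carryOp (enc c).head? c').app (enc c) = enc c' := by
  interval_cases c <;> interval_cases c' <;> rfl

/-- The sum of the bits on top. -/
def sm (U : HR) (t : HR → Option Bool) : ℕ :=
  ((t U).getD false).toNat + ((t P1).getD false).toNat + ((t P2).getD false).toNat + dec (t C)

/-- One bit of the addition. -/
def addStep (U : HR) : Prog HR Bool := .act fun t =>
  update (update (update (update (update (fun _ => .nop) U .pop) P1 .pop) P2 .pop) Z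
    (.push (sm U t % 2 == 1))) C (carryOp (t C) (sm U t / 2))

theorem addStep_runs {U : HR} (hU : U = P0 ∨ U = P3) {s : Store HR Bool} {u : Bool}
    {us p r : List Bool} {c : ℕ} (hc : c ≤ 2) (hu : s U = u :: us) (hp : s P1 = p)
    (hr : s P2 = r) (hC : s C = enc c) :
    Runs (addStep U) s (update (update (update (update (update s U us) P1 p.tail) P2 r.tail) Z
      (((u.toNat + hd p + hd r + c) % 2 == 1) :: s Z)) C
      (enc ((u.toNat + hd p + hd r + c) / 2))) 1 := by
  have e : sm U s.tops = u.toNat + hd p + hd r + c := by
    simp only [sm, Store.tops, hu, hp, hr, hC, dec_enc hc, hd]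
    rfl
  have hc' : (u.toNat + hd p + hd r + c) / 2 ≤ 2 := by
    have h1 : u.toNat ≤ 1 := Bool.toNat_le u
    have h2 : hd p ≤ 1 := Bool.toNat_le _
    have h3 : hd r ≤ 1 := Bool.toNat_le _
    omega
  apply Runs.act_eq
  intro k
  rw [e]
  have h5 := carryOp_app hc hc'
  rw [← hC] at h5
  rcases hU with rfl | rfl <;> cases k <;> simp [Op.app, hu, hp, hr, Store.tops]
  · exact h5
  · exact h5

theorem addLoop_runs {U : HR} (hU : U = P0 ∨ U = P3) (u : List Bool) {s : Store HR Bool}
    {p r : List Bool} {c : ℕ} (hc : c ≤ 2) (hu : s U = u) (hp : s P1 = p)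
    (hr : s P2 = r) (hC : s C = enc c) :
    Runs (whileNE U (addStep U)) s (update (update (update (update (update s U []) P1
      (p.drop u.length)) P2 (r.drop u.length)) Z ((add3 u p r c).reverse ++ s Z)) C
      (enc (carr u p r c))) (2 * u.length + 1) := by
  induction u generalizing s p r c with
  | nil =>
    refine (Runs.whileNE_nil hu).conv ?_ (by simp)
    rcases hU with rfl | rfl <;>
    · funext k
      cases k <;> simp [hu, hp, hr, hC, add3, carr]
  | cons u us ih =>
    have h1 := addStep_runs hU hc hu hp hr hC
    have hc' : (u.toNat + hd p + hd r + c) / 2 ≤ 2 := by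
      have h1 : u.toNat ≤ 1 := Bool.toNat_le u
      have h2 : hd p ≤ 1 := Bool.toNat_le _
      have h3 : hd r ≤ 1 := Bool.toNat_le _
      omega
    have h2 := ih (s := update (update (update (update (update s U us) P1 p.tail) P2 r.tail) Z
      (((u.toNat + hd p + hd r + c) % 2 == 1) :: s Z)) C
      (enc ((u.toNat + hd p + hd r + c) / 2))) (p := p.tail) (r := r.tail)
      (c := (u.toNat + hd p + hd r + c) / 2) hc'
      (by rcases hU with rfl | rfl <;> simp) (by simp) (by simp) (by simp)
    refine (Runs.whileNE_cons hu h1 h2).conv ?_ (by simp only [List.length_cons]; omega)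
    clear h1 h2 ih
    rcases hU with rfl | rfl <;>
    · funext k
      cases k <;> simp [add3, carr, List.drop_tail]

/-! ### The last phase -/

/-- Addition, removal of the two superfluous bits, output. -/
def lastP : Prog HR Bool :=
  .seq (xfer rh q P0 Z) (.seq (whileNE P0 (addStep P0)) (.seq (whileNE P3 (addStep P3))
    (.seq (peek par fun o => if o.isSome then .seq (pop par) (.seq (pop Z) (pop Z)) else nop)
      (.seq (flip Z O) (clear rh)))))

theorem reverse_take_tail2 {l : List Bool} {k : ℕ} (hl : l.length = k + 2) :
    l.reverse.tail.tail.reverse = l.take k := by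
  have : l.take k = (l.reverse.drop 2).reverse := by
    rw [List.drop_reverse, List.reverse_reverse, hl]
    rfl
  rw [this, ← List.drop_one, ← List.drop_one, List.drop_drop]

theorem lastP_runs {s : Store HR Bool} {m h : ℕ} {p0 p1 p2 p3 : List Bool}
    (hh : h = (m + 1) / 2) (l0 : p0.length = 2 * h) (l1 : p1.length = 2 * h)
    (l2 : p2.length = 2 * h) (l3 : p3.length = 2 * h)
    (h0 : s P0 = p0) (h1 : s P1 = p1) (h2 : s P2 = p2) (h3 : s P3 = p3) (hr : s rh = zer h)
    (hp : s par = zer (m % 2)) (hq : s q = []) (hZ : s Z = []) (hC : s C = []) (hO : s O = [])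
    (hcar : carr (p0.drop h ++ p3) p1 p2 0 = 0) :
    Runs lastP s (update (update (update (update (update (update (update s P0 []) P1 []) P2 [])
      P3 []) rh []) par []) O ((p0.take h ++ add3 (p0.drop h ++ p3) p1 p2 0).take (2 * m)))
      (25 * h + 20) := by
  have e1 : s P0 = p0.take h ++ p0.drop h := by rw [List.take_append_drop, h0]
  have k1 := Runs.xfer (s := s) (r := rh) (q := q) (src := P0) (dst := Z) (by decide) (by decide)
    (by decide) (by decide) (by decide) (by decide) (a := false) (n := h) hr hq e1
    (by simp [l0]; omega)
  rw [hZ, List.append_nil] at k1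
  have k2 := addLoop_runs (U := P0) (Or.inl rfl) (p0.drop h) (s := update (update s P0 (p0.drop h))
    Z (p0.take h).reverse) (p := p1) (r := p2) (c := 0) (by omega) (by simp)
    (by simpa using h1) (by simpa using h2) (by simpa [enc] using hC)
  have hc1 : carr (p0.drop h) p1 p2 0 ≤ 2 := carr_le _ _ _ (by omega)
  have k3 := addLoop_runs (U := P3) (Or.inr rfl) p3 (s := update (update (update (update (update
    (update (update s P0 (p0.drop h)) Z (p0.take h).reverse) P0 []) P1
      (p1.drop (p0.drop h).length)) P2 (p2.drop (p0.drop h).length)) Z
      ((add3 (p0.drop h) p1 p2 0).reverse ++ update (update s P0 (p0.drop h))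
        Z (p0.take h).reverse Z)) C (enc (carr (p0.drop h) p1 p2 0)))
    (p := p1.drop (p0.drop h).length) (r := p2.drop (p0.drop h).length)
    (c := carr (p0.drop h) p1 p2 0) hc1 (by simpa using h3) (by simp) (by simp) (by simp)
  set F := p0.take h ++ add3 (p0.drop h ++ p3) p1 p2 0 with hF
  have lF : F.length = 4 * h := by
    rw [hF, List.length_append, add3_length, List.length_append, List.length_take,
      List.length_drop, l0, l3]; omega
  -- state after the addition
  have eq3 : update (update (update (update (update (update (update (update (update (update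
    (update (update s P0 (p0.drop h)) Z (p0.take h).reverse) P0 []) P1
      (p1.drop (p0.drop h).length)) P2 (p2.drop (p0.drop h).length)) Z
      ((add3 (p0.drop h) p1 p2 0).reverse ++ update (update s P0 (p0.drop h))
        Z (p0.take h).reverse Z)) C (enc (carr (p0.drop h) p1 p2 0))) P3 []) P1
      ((p1.drop (p0.drop h).length).drop p3.length)) P2
      ((p2.drop (p0.drop h).length).drop p3.length)) Z
      ((add3 p3 (p1.drop (p0.drop h).length) (p2.drop (p0.drop h).length)
        (carr (p0.drop h) p1 p2 0)).reverse ++ update (update (update (update (update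
    (update (update s P0 (p0.drop h)) Z (p0.take h).reverse) P0 []) P1
      (p1.drop (p0.drop h).length)) P2 (p2.drop (p0.drop h).length)) Z
      ((add3 (p0.drop h) p1 p2 0).reverse ++ update (update s P0 (p0.drop h))
        Z (p0.take h).reverse Z)) C (enc (carr (p0.drop h) p1 p2 0)) Z)) C
      (enc (carr p3 (p1.drop (p0.drop h).length) (p2.drop (p0.drop h).length)
        (carr (p0.drop h) p1 p2 0))) =
      update (update (update (update (update s P0 []) P1 []) P2 []) P3 []) Z F.reverse := by
    rw [← carr_append, hcar]
    funext k
    have d1 : p1.length ≤ (p0.drop h).length + p3.length := by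
      rw [List.length_drop, l0, l1, l3]; omega
    have d2 : p2.length ≤ (p0.drop h).length + p3.length := by
      rw [List.length_drop, l0, l2, l3]; omega
    have d3 := List.drop_eq_nil_of_le d1
    have d4 := List.drop_eq_nil_of_le d2
    cases k <;> simp only [Function.update_apply, reduceCtorEq, if_true, if_false,
      List.drop_drop, d3, d4, hC, enc, hF, add3_append, List.reverse_append, List.append_assoc]
  rw [eq3] at k3
  rcases Nat.mod_two_eq_zero_or_one m with he | he
  · have k4 : Runs (peek par fun o => if o.isSome then .seq (pop par) (.seq (pop Z) (pop Z))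
        else nop : Prog HR Bool) (update (update (update (update (update s P0 []) P1 []) P2 [])
        P3 []) Z F.reverse) (update (update (update (update (update s P0 []) P1 []) P2 [])
        P3 []) Z F.reverse) 2 := by
      apply Runs.peek (c := 1)
      have : update (update (update (update (update s P0 []) P1 []) P2 [])
        P3 []) Z F.reverse par = [] := by simp [hp, he, zer]
      rw [this]
      exact Runs.nop _
    refine (k1.seq (k2.seq (k3.seq (k4.seq ((Runs.flip (r := Z) (q := O) (by decide) _).seq
      (Runs.clear rh _)))))).conv ?_ ?_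
    · have e4 : F.take (2 * m) = F := List.take_of_length_le (by omega)
      rw [e4]
      clear k1 k2 k3 k4 eq3
      funext k
      cases k <;> simp [hO, hp, he, zer, hZ]
    · simp [lF, hr, l0, l3]
      omega
  · have k4 : Runs (peek par fun o => if o.isSome then .seq (pop par) (.seq (pop Z) (pop Z))
        else nop : Prog HR Bool) (update (update (update (update (update s P0 []) P1 []) P2 [])
        P3 []) Z F.reverse) (update (update (update (update (update (update s P0 []) P1 []) P2 [])
        P3 []) Z F.reverse.tail.tail) par []) 4 := by
      apply Runs.peek (c := 3)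
      have : update (update (update (update (update s P0 []) P1 []) P2 [])
        P3 []) Z F.reverse par = [false] := by simp [hp, he, zer]
      rw [this]
      refine ((Runs.pop par _).seq ((Runs.pop Z _).seq (Runs.pop Z _))).conv ?_ le_rfl
      funext k
      cases k <;> simp [hp, he, zer]
    refine (k1.seq (k2.seq (k3.seq (k4.seq ((Runs.flip (r := Z) (q := O) (by decide) _).seq
      (Runs.clear rh _)))))).conv ?_ ?_
    · have e4 : F.reverse.tail.tail.reverse = F.take (2 * m) :=
        reverse_take_tail2 (by omega)
      clear k1 k2 k3 k4 eq3
      funext k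
      cases k <;> simp [hO, hZ, -List.reverse_reverse, -List.tail_reverse, e4]
    · simp [lF, hr, l0, l3]
      omega

/-! ### The program -/

/-- Contents of the registers (the scratch registers are empty). -/
structure HV : Type where
  X : List Bool := []
  Y : List Bool := []
  x0 : List Bool := []
  y0 : List Bool := []
  a : List Bool := []
  b : List Bool := []
  P0 : List Bool := []
  P1 : List Bool := []
  P2 : List Bool := []
  P3 : List Bool := []
  rh : List Bool := []
  par : List Bool := []
  O : List Bool := []

/-- The store. -/
def HV.st (v : HV) : Store HR Bool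
  | .X => v.X
  | .Y => v.Y
  | .x0 => v.x0
  | .y0 => v.y0
  | .a => v.a
  | .b => v.b
  | .P0 => v.P0
  | .P1 => v.P1
  | .P2 => v.P2
  | .P3 => v.P3
  | .rh => v.rh
  | .par => v.par
  | .O => v.O
  | .q => []
  | .T => []
  | .t1 => []
  | .t2 => []
  | .Z => []
  | .C => []

/-- First base part. -/
def headP : Prog HR Bool :=
  .seq cntP (.seq (splitP X x0) (.seq (splitP Y y0) (.seq (copy x0 q a) (copy y0 q b))))

/-- Multiplication of numbers of `m` bits by calls of size `(m+1)/2`. -/
def halfP (A : Machine) : Prog (HR ⊕ Sim.AReg A) (Bool ⊕ Sim.ASym A) :=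
  .seq (headP.lift _ _) <| .seq (callP A HR.a HR.b HR.P0) <|
  .seq ((.seq (copy X q a) (copy Y q b) : Prog HR Bool).lift _ _) <|
  .seq (callP A HR.a HR.b HR.P3) <| .seq (callP A HR.x0 HR.Y HR.P1) <|
  .seq (callP A HR.X HR.y0 HR.P2) (lastP.lift _ _)

theorem headP_runs {m h : ℕ} {x y : List Bool} (hh : h = (m + 1) / 2) (hm : 1 ≤ m)
    (hx : x.length = m) (hy : y.length = m) :
    Runs headP ({ X := x, Y := y } : HV).st
      ({ X := up h x, Y := up h y, x0 := x.take h, y0 := y.take h, a := x.take h, b := y.take h,
         rh := zer h, par := zer (m % 2) } : HV).st (7 * m + 54 * h + 40) := by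
  have h1 : Runs cntP ({ X := x, Y := y } : HV).st
      ({ X := x, Y := y, rh := zer h, par := zer (m % 2) } : HV).st (7 * m + 2) := by
    refine (cntP_runs (s := ({ X := x, Y := y } : HV).st) hx rfl rfl rfl).conv ?_ le_rfl
    rw [← hh]
    funext k
    cases k <;> rfl
  have h2 : Runs (splitP X x0) ({ X := x, Y := y, rh := zer h, par := zer (m % 2) } : HV).st
      ({ X := up h x, Y := y, x0 := x.take h, rh := zer h, par := zer (m % 2) } : HV).st
      (23 * h + 17) := by
    refine (splitP_runs (Or.inl ⟨rfl, rfl⟩) (h := h) (x := x) rfl (by omega) (by omega) rfl rfl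
      rfl rfl rfl rfl).conv ?_ le_rfl
    funext k
    cases k <;> rfl
  have h3 : Runs (splitP Y y0)
      ({ X := up h x, Y := y, x0 := x.take h, rh := zer h, par := zer (m % 2) } : HV).st
      ({ X := up h x, Y := up h y, x0 := x.take h, y0 := y.take h, rh := zer h,
         par := zer (m % 2) } : HV).st (23 * h + 17) := by
    refine (splitP_runs (Or.inr ⟨rfl, rfl⟩) (h := h) (x := y) rfl (by omega) (by omega) rfl rfl
      rfl rfl rfl rfl).conv ?_ le_rfl
    funext k
    cases k <;> rfl
  have h4 : Runs (copy x0 q a)
      ({ X := up h x, Y := up h y, x0 := x.take h, y0 := y.take h, rh := zer h,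
         par := zer (m % 2) } : HV).st
      ({ X := up h x, Y := up h y, x0 := x.take h, y0 := y.take h, a := x.take h, rh := zer h,
         par := zer (m % 2) } : HV).st (4 * h + 2) := by
    refine (Runs.copy (r := x0) (q := q) (dst := HR.a) (by decide) (by decide) (by decide)
      rfl).conv ?_ ?_
    · funext k
      cases k <;> simp [HV.st]
    · simp only [HV.st, List.length_take]
      omega
  have h5 : Runs (copy y0 q b)
      ({ X := up h x, Y := up h y, x0 := x.take h, y0 := y.take h, a := x.take h, rh := zer h,
         par := zer (m % 2) } : HV).st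
      ({ X := up h x, Y := up h y, x0 := x.take h, y0 := y.take h, a := x.take h, b := y.take h,
         rh := zer h, par := zer (m % 2) } : HV).st (4 * h + 2) := by
    refine (Runs.copy (r := y0) (q := q) (dst := HR.b) (by decide) (by decide) (by decide)
      rfl).conv ?_ ?_
    · funext k
      cases k <;> simp [HV.st]
    · simp only [HV.st, List.length_take]
      omega
  exact (h1.seq (h2.seq (h3.seq (h4.seq h5)))).weaken (by omega)

/-- **Specification of the halving program.** -/
theorem halfP_runs {A : Machine} (hA : Multiplies A) {m : ℕ} {x y : List Bool} (hm : 1 ≤ m)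
    (hx : x.length = m) (hy : y.length = m) :
    LRuns (halfP A) ({ X := x, Y := y } : HV).st
      ({ O := lbits (2 * m) (lval x * lval y) } : HV).st
      (24 * mulTime A ((m + 1) / 2) + 350 * m) := by
  obtain ⟨h, hh⟩ : ∃ h, h = (m + 1) / 2 := ⟨_, rfl⟩
  rw [← hh]
  have hh1 : 1 ≤ h := by omega
  have lx0 : (x.take h).length = h := by rw [List.length_take]; omega
  have ly0 : (y.take h).length = h := by rw [List.length_take]; omega
  have lx1 : (up h x).length = h := up_length hx (by omega)
  have ly1 : (up h y).length = h := up_length hy (by omega)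
  have h1 := LRuns.base (Y := Sim.AReg A) (Z := Sim.ASym A) (headP_runs hh hm hx hy)
  have h2 : LRuns (callP A HR.a HR.b HR.P0)
      ({ X := up h x, Y := up h y, x0 := x.take h, y0 := y.take h, a := x.take h, b := y.take h,
         rh := zer h, par := zer (m % 2) } : HV).st
      ({ X := up h x, Y := up h y, x0 := x.take h, y0 := y.take h,
         P0 := mulL h (x.take h) (y.take h), rh := zer h, par := zer (m % 2) } : HV).st
      (6 * mulTime A h + 40 * h) := by
    refine (LRuns.callP hA (x := HR.a) (y := HR.b) (out := HR.P0) (by decide) (by decide)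
      (by decide) hh1 lx0 ly0 rfl).conv ?_ le_rfl
    funext k
    cases k <;> rfl
  have h3 : Runs (.seq (copy X q a) (copy Y q b))
      ({ X := up h x, Y := up h y, x0 := x.take h, y0 := y.take h,
         P0 := mulL h (x.take h) (y.take h), rh := zer h, par := zer (m % 2) } : HV).st
      ({ X := up h x, Y := up h y, x0 := x.take h, y0 := y.take h, a := up h x, b := up h y,
         P0 := mulL h (x.take h) (y.take h), rh := zer h, par := zer (m % 2) } : HV).st
      (8 * h + 4) := by
    refine ((Runs.copy (r := X) (q := q) (dst := HR.a) (by decide) (by decide) (by decide)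
      rfl).seq (Runs.copy (r := Y) (q := q) (dst := HR.b) (by decide) (by decide) (by decide)
      rfl)).conv ?_ ?_
    · funext k
      cases k <;> simp [HV.st]
    · simp only [HV.st, Function.update_apply, reduceCtorEq, if_false, lx1, ly1]
      omega
  have h4 : LRuns (callP A HR.a HR.b HR.P3)
      ({ X := up h x, Y := up h y, x0 := x.take h, y0 := y.take h, a := up h x, b := up h y,
         P0 := mulL h (x.take h) (y.take h), rh := zer h, par := zer (m % 2) } : HV).st
      ({ X := up h x, Y := up h y, x0 := x.take h, y0 := y.take h,
         P0 := mulL h (x.take h) (y.take h), P3 := mulL h (up h x) (up h y), rh := zer h,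
         par := zer (m % 2) } : HV).st
      (6 * mulTime A h + 40 * h) := by
    refine (LRuns.callP hA (x := HR.a) (y := HR.b) (out := HR.P3) (by decide) (by decide)
      (by decide) hh1 lx1 ly1 rfl).conv ?_ le_rfl
    funext k
    cases k <;> rfl
  have h5 : LRuns (callP A HR.x0 HR.Y HR.P1)
      ({ X := up h x, Y := up h y, x0 := x.take h, y0 := y.take h,
         P0 := mulL h (x.take h) (y.take h), P3 := mulL h (up h x) (up h y), rh := zer h,
         par := zer (m % 2) } : HV).st
      ({ X := up h x, y0 := y.take h,
         P0 := mulL h (x.take h) (y.take h), P3 := mulL h (up h x) (up h y),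
         P1 := mulL h (x.take h) (up h y), rh := zer h, par := zer (m % 2) } : HV).st
      (6 * mulTime A h + 40 * h) := by
    refine (LRuns.callP hA (x := HR.x0) (y := HR.Y) (out := HR.P1) (by decide) (by decide)
      (by decide) hh1 lx0 ly1 rfl).conv ?_ le_rfl
    funext k
    cases k <;> rfl
  have h6 : LRuns (callP A HR.X HR.y0 HR.P2)
      ({ X := up h x, y0 := y.take h,
         P0 := mulL h (x.take h) (y.take h), P3 := mulL h (up h x) (up h y),
         P1 := mulL h (x.take h) (up h y), rh := zer h, par := zer (m % 2) } : HV).st
      ({ P0 := mulL h (x.take h) (y.take h), P3 := mulL h (up h x) (up h y),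
         P1 := mulL h (x.take h) (up h y), P2 := mulL h (up h x) (y.take h), rh := zer h,
         par := zer (m % 2) } : HV).st
      (6 * mulTime A h + 40 * h) := by
    refine (LRuns.callP hA (x := HR.X) (y := HR.y0) (out := HR.P2) (by decide) (by decide)
      (by decide) hh1 lx1 ly0 rfl).conv ?_ le_rfl
    funext k
    cases k <;> rfl
  have hl := half_list hx hy (h := h) (by omega) (by omega)
  have h7 : Runs lastP
      ({ P0 := mulL h (x.take h) (y.take h), P3 := mulL h (up h x) (up h y),
         P1 := mulL h (x.take h) (up h y), P2 := mulL h (up h x) (y.take h), rh := zer h,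
         par := zer (m % 2) } : HV).st
      ({ O := lbits (2 * m) (lval x * lval y) } : HV).st (25 * h + 20) := by
    have ll : ∀ u v : List Bool, (mulL h u v).length = 2 * h := fun u v => by
      rw [mulL, H811.length_lbits]
    refine (lastP_runs hh (ll _ _) (ll _ _) (ll _ _) (ll _ _) rfl rfl rfl rfl rfl rfl rfl rfl rfl
      rfl hl.1).conv ?_ le_rfl
    rw [hl.2]
    funext k
    cases k <;> rfl
  refine (h1.seq (h2.seq ((LRuns.base h3).seq (h4.seq (h5.seq (h6.seq
    (LRuns.base h7))))))).weaken ?_
  omega

end Vale.Agent.P338.HF
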