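import Vale.Agent.P338.H811.FastE1

/-!
# Stage 3: halving the size of a multiplication, list level
-/

namespace Vale.Agent.P338.HF

open Vale.Agent.P338 Vale.Agent.P338.H811

/-- first bit, `0` if there is none -/
def hd (l : List Bool) : ℕ := (l.head?.getD false).toNat

theorem lval_eq (l : List Bool) : lval l = hd l + 2 * lval l.tail := by
  cases l <;> simp [hd]

/-- sum of three numbers and a carry, as many bits as `u` has -/
def add3 : List Bool → List Bool → List Bool → ℕ → List Bool
  | [], _, _, _ => []
  | u :: us, p, q, c =>
    ((u.toNat + hd p + hd q + c) % 2 == 1) :: add3 us p.tail q.tail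
      ((u.toNat + hd p + hd q + c) / 2)

/-- the carry at the end -/
def carr : List Bool → List Bool → List Bool → ℕ → ℕ
  | [], _, _, c => c
  | u :: us, p, q, c => carr us p.tail q.tail ((u.toNat + hd p + hd q + c) / 2)

theorem add3_length (u p q : List Bool) (c : ℕ) : (add3 u p q c).length = u.length := by
  induction u generalizing p q c with
  | nil => rfl
  | cons u us ih => simp [add3, ih]

theorem add3_append (u v p q : List Bool) (c : ℕ) :
    add3 (u ++ v) p q c = add3 u p q c ++ add3 v (p.drop u.length) (q.drop u.length)
      (carr u p q c) := by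
  induction u generalizing p q c with
  | nil => simp [add3, carr]
  | cons u us ih => simp [add3, carr, ih, List.drop_tail]

theorem carr_append (u v p q : List Bool) (c : ℕ) :
    carr (u ++ v) p q c = carr v (p.drop u.length) (q.drop u.length) (carr u p q c) := by
  induction u generalizing p q c with
  | nil => simp [carr]
  | cons u us ih => simp [carr, ih, List.drop_tail]

theorem add3_lval (u p q : List Bool) (c : ℕ) :
    lval (add3 u p q c) + 2 ^ u.length * (carr u p q c + lval (p.drop u.length) +
      lval (q.drop u.length)) = lval u + lval p + lval q + c := by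
  induction u generalizing p q c with
  | nil => simp [add3, carr]; ring
  | cons u us ih =>
    have h := ih p.tail q.tail ((u.toNat + hd p + hd q + c) / 2)
    simp only [add3, carr, lval_cons, List.length_cons]
    rw [List.drop_tail, List.drop_tail] at h
    rw [lval_eq p, lval_eq q, beq_one_toNat, pow_succ]
    have h2 := Nat.div_add_mod (u.toNat + hd p + hd q + c) 2
    nlinarith

theorem carr_le (u p q : List Bool) {c : ℕ} (hc : c ≤ 2) : carr u p q c ≤ 2 := by
  induction u generalizing p q c with
  | nil => exact hc
  | cons u us ih =>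
    apply ih
    have h1 : u.toNat ≤ 1 := Bool.toNat_le u
    have h2 : hd p ≤ 1 := Bool.toNat_le _
    have h3 : hd q ≤ 1 := Bool.toNat_le _
    omega

theorem carr_eq_zero {u p q : List Bool} {c : ℕ} (h : lval u + lval p + lval q + c < 2 ^ u.length) :
    carr u p q c = 0 := by
  have h1 := add3_lval u p q c
  by_contra h2
  have h3 : 2 ^ u.length * 1 ≤ 2 ^ u.length * (carr u p q c + lval (p.drop u.length) +
      lval (q.drop u.length)) := Nat.mul_le_mul_left _ (by omega)
  omega

theorem lval_add3 {u p q : List Bool} {c : ℕ} (h : lval u + lval p + lval q + c < 2 ^ u.length) :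
    lval (add3 u p q c) = lval u + lval p + lval q + c := by
  have h1 := add3_lval u p q c
  have h3 : 2 ^ u.length * (carr u p q c + lval (p.drop u.length) +
      lval (q.drop u.length)) = 0 := by
    by_contra h2
    have h4 : carr u p q c + lval (p.drop u.length) + lval (q.drop u.length) ≠ 0 := by
      intro h5
      rw [h5] at h2
      exact h2 rfl
    have h3 : 2 ^ u.length * 1 ≤ 2 ^ u.length * (carr u p q c + lval (p.drop u.length) +
      lval (q.drop u.length)) := Nat.mul_le_mul_left _ (by omega)
    omega
  omega

theorem lval_mulL {h : ℕ} {u v : List Bool} (hu : u.length = h) (hv : v.length = h) :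
    lval (mulL h u v) = lval u * lval v := by
  rw [mulL, lval_lbits_of_lt]
  have h1 := lval_lt u
  have h2 := lval_lt v
  rw [hu] at h1
  rw [hv] at h2
  calc lval u * lval v < 2 ^ h * 2 ^ h := Nat.mul_lt_mul'' h1 h2
    _ = 2 ^ (2 * h) := by rw [two_mul, pow_add]

/-- upper half, padded -/
def up (h : ℕ) (x : List Bool) : List Bool := fillTo h (x.drop h)

theorem lval_fillTo' (m : ℕ) (l : List Bool) : lval (fillTo m l) = lval l := by
  rw [fillTo, lval_append, lval_zer]; ring

theorem up_length {h m : ℕ} {x : List Bool} (hx : x.length = m) (hm : m ≤ 2 * h) :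
    (up h x).length = h := by
  simp only [up, fillTo, List.length_append, List.length_drop, length_zer]
  omega

theorem lval_split {h : ℕ} {x : List Bool} (hx : h ≤ x.length) :
    lval x = lval (x.take h) + 2 ^ h * lval (up h x) := by
  conv_lhs => rw [← List.take_append_drop h x]
  rw [lval_append, up, lval_fillTo', List.length_take, Nat.min_eq_left hx]

/-- the two operands of the final addition have the right total -/
theorem half_list {m h : ℕ} {x y : List Bool} (hx : x.length = m) (hy : y.length = m)
    (hm : m ≤ 2 * h) (hh : h ≤ m) :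
    carr ((mulL h (x.take h) (y.take h)).drop h ++ mulL h (up h x) (up h y))
      (mulL h (x.take h) (up h y)) (mulL h (up h x) (y.take h)) 0 = 0 ∧
    ((mulL h (x.take h) (y.take h)).take h ++
      add3 ((mulL h (x.take h) (y.take h)).drop h ++ mulL h (up h x) (up h y))
      (mulL h (x.take h) (up h y)) (mulL h (up h x) (y.take h)) 0).take (2 * m) =
      lbits (2 * m) (lval x * lval y) := by
  set x0 := x.take h with hx0
  set y0 := y.take h with hy0
  set x1 := up h x with hx1
  set y1 := up h y with hy1
  have lx0 : x0.length = h := by rw [hx0, List.length_take]; omega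
  have ly0 : y0.length = h := by rw [hy0, List.length_take]; omega
  have lx1 : x1.length = h := up_length hx hm
  have ly1 : y1.length = h := up_length hy hm
  have vx : lval x = lval x0 + 2 ^ h * lval x1 := lval_split (by omega)
  have vy : lval y = lval y0 + 2 ^ h * lval y1 := lval_split (by omega)
  set P0 := mulL h x0 y0 with hP0
  set P3 := mulL h x1 y1 with hP3
  set P1 := mulL h x0 y1 with hP1
  set P2 := mulL h x1 y0 with hP2
  have l0 : P0.length = 2 * h := by rw [hP0, mulL, length_lbits]
  have l3 : P3.length = 2 * h := by rw [hP3, mulL, length_lbits]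
  have v0 : lval P0 = lval x0 * lval y0 := lval_mulL lx0 ly0
  have v1 : lval P1 = lval x0 * lval y1 := lval_mulL lx0 ly1
  have v2 : lval P2 = lval x1 * lval y0 := lval_mulL lx1 ly0
  have v3 : lval P3 = lval x1 * lval y1 := lval_mulL lx1 ly1
  have s0 : lval P0 = lval (P0.take h) + 2 ^ h * lval (P0.drop h) := by
    conv_lhs => rw [← List.take_append_drop h P0]
    rw [lval_append, List.length_take, Nat.min_eq_left (by omega)]
  have lU : (P0.drop h ++ P3).length = 3 * h := by
    rw [List.length_append, List.length_drop, l0, l3]; omega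
  have vU : lval (P0.drop h ++ P3) = lval (P0.drop h) + 2 ^ h * lval P3 := by
    rw [lval_append, List.length_drop, l0, show 2 * h - h = h by omega]
  have bound : lval x * lval y < 2 ^ (4 * h) := by
    have h1 := lval_lt x
    have h2 := lval_lt y
    have h3 : (2 : ℕ) ^ m ≤ 2 ^ (2 * h) := Nat.pow_le_pow_right (by norm_num) hm
    rw [hx] at h1
    rw [hy] at h2
    calc lval x * lval y < 2 ^ m * 2 ^ m := Nat.mul_lt_mul'' h1 h2
      _ ≤ 2 ^ (2 * h) * 2 ^ (2 * h) := Nat.mul_le_mul h3 h3
      _ = 2 ^ (4 * h) := by rw [← pow_add]; congr 1; omega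
  have total : lval (P0.take h) + 2 ^ h * (lval (P0.drop h ++ P3) + lval P1 + lval P2 + 0) =
      lval x * lval y := by
    rw [vU, v1, v2, v3, vx, vy]
    have : lval (P0.take h) + 2 ^ h * lval (P0.drop h) = lval x0 * lval y0 := by rw [← s0, v0]
    linear_combination this
  have hlt : lval (P0.drop h ++ P3) + lval P1 + lval P2 + 0 < 2 ^ (P0.drop h ++ P3).length := by
    rw [lU]
    have h1 : 2 ^ h * (lval (P0.drop h ++ P3) + lval P1 + lval P2 + 0) < 2 ^ h * 2 ^ (3 * h) := by
      rw [← pow_add, show h + 3 * h = 4 * h by ring]
      omega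
    exact Nat.lt_of_mul_lt_mul_left h1
  refine ⟨carr_eq_zero hlt, ?_⟩
  have hv : lval (P0.take h ++ add3 (P0.drop h ++ P3) P1 P2 0) = lval x * lval y := by
    rw [lval_append, lval_add3 hlt, List.length_take, Nat.min_eq_left (by omega), total]
  have hl : (P0.take h ++ add3 (P0.drop h ++ P3) P1 P2 0).length = 4 * h := by
    rw [List.length_append, add3_length, lU, List.length_take, l0]; omega
  rw [← lbits_lval (P0.take h ++ add3 (P0.drop h ++ P3) P1 P2 0), hl, hv, take_lbits (by omega)]

end Vale.Agent.P338.HF
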