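import Vale.Agent.P338.H763.Half
import Vale.Agent.P338.H373.HalfGlue

/-!
# Stage 3: the machine with calls of half the size
-/

namespace Vale.Agent.P338

open Function (update)

/-- **Halving.**  From a machine `A` that multiplies one gets another one whose time at size `n`
is bounded by a constant times the time of `A` at size `⌈n/2⌉`. -/
theorem half {A : Machine} (hA : Multiplies A) :
    ∃ A2 : Machine, Multiplies A2 ∧
      ∃ K : ℕ, ∀ n, 1 ≤ n → mulTime A2 n ≤ K * mulTime A ((n + 1) / 2) := by
  refine H373.half_of_prog hA (HF.halfP A) HF.HR.X HF.HR.Y HF.HR.O (by decide) (by decide)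
    (by decide) (fun m => 24 * mulTime A ((m + 1) / 2) + 350 * m) 350 ?_ ?_
  · intro n _
    show 24 * mulTime A ((n + 1) / 2) + 350 * n ≤ 350 * mulTime A ((n + 1) / 2) + 350 * n
    omega
  · intro n hn xl yl hx hy
    have h := HF.halfP_runs hA hn hx hy
    have e1 : (update (update (fun _ => []) HF.HR.X xl) HF.HR.Y yl : Store HF.HR Bool) =
        ({ X := xl, Y := yl } : HF.HV).st := by
      funext k
      cases k <;> rfl
    have e2 : (update (fun _ => []) HF.HR.O (lbits (2 * n) (lval xl * lval yl)) :
        Store HF.HR Bool) = ({ O := lbits (2 * n) (lval xl * lval yl) } : HF.HV).st := by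
      funext k
      cases k <;> rfl
    rw [e1, e2]
    exact h

end Vale.Agent.P338
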