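import Vale.Agent.P338.H763.LiftLib
import Vale.Agent.P338.H763.F1
import Vale.Agent.P338.CoreSpecD
import Vale.Agent.P338.H811.FastE1

/-!
# Stage 2: programs of the passes with inner calls (F1, F3) and of the kernels
-/

set_option linter.unusedSectionVars false

namespace Vale.Agent.P338.H763

open Function (update)
open Vale.Agent.P338

/-- Registers of the passes of stage 2.  `I` input, `Y` output (reversed), `O` output, `a b c`
small call, `tab` table, `T` current scalar, `mu` second scalar of F3, rulers `rs = s`, `rn = n`,
`rB = b`, `rW = W`, `rWb = W - b`, `rKR = s*n*2W`, `r2s = 2s`, `rHZ = n*2W - W`, scratch. -/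
inductive RD : Type
  | I | Y | O | a | b | c | tab | T | mu | rs | rn | rB | rW | rWb | rKR | r2s | rHZ
  | q0 | q1 | q2 | tp
  deriving DecidableEq

open RD Prog

/-! ### Kernels -/

/-- Kernel rows. -/
def kerDP : Prog RD Bool :=
  .seq (forR r2s q1 (.seq (xfer rW q0 tab Y) (fill rHZ q0 Y false))) (flip Y O)

theorem kerDP_runs {s : Store RD Bool} {S W H : ℕ} {h : ℕ → ℕ}
    (htab : s tab = cat (2 * S) fun m => lbits W (h m)) (h2s : s r2s = zer (2 * S))
    (hW : s rW = zer W) (hH : s rHZ = zer H) (hY : s Y = []) (hO : s O = []) (h0 : s q0 = [])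
    (h1 : s q1 = []) :
    Runs kerDP s (update (update s tab []) O (cat (2 * S) fun m => lbits W (h m) ++ zer H))
      (2 * S * (7 * W + 7 * H + 8) + 3) := by
  have hs0 : update (update s tab ((cat (2 * S - 0) fun m => lbits W (h (0 + m))) ++ [])) Y
      ((cat 0 fun m => lbits W (h m) ++ zer H).reverse ++ s Y) = s := by
    funext k
    cases k <;> simp [htab]
  have e1 := Runs.forR (r := r2s) (q := q1)
    (p := (.seq (xfer rW q0 tab Y) (fill rHZ q0 Y false) : Prog RD Bool)) (by decide) (a := false)
    (n := 2 * S) (fun j => update (update s tab ((cat (2 * S - j) fun m => lbits W (h (j + m))) ++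
      [])) Y ((cat j fun m => lbits W (h m) ++ zer H).reverse ++ s Y)) (5 * W + 5 * H + 4)
    (by simpa [zer] using h2s) (by simpa using h1) (by
      intro j hj
      refine ((Runs.xfer (a := false) (n := W) (u := lbits W (h j))
        (v := (cat (2 * S - (j + 1)) fun m => lbits W (h (j + 1 + m))) ++ []) (by decide)
        (by decide) (by decide) (by decide) (by decide) (by decide) (by simpa [zer] using hW)
        (by simpa using h0) (by simp [cat_next hj fun m => lbits W (h m)]) (by simp)).seq
        (Runs.fill (a := false) (n := H) (by decide) (by decide) (by decide)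
        (by simpa [zer] using hH) (by simpa using h0))).conv ?_ (by omega)
      funext k
      cases k <;> simp [cat_succ, zer])
  simp only [hs0] at e1
  refine (e1.seq (Runs.flip (r := Y) (q := O) (by decide) _)).conv ?_ ?_
  · clear e1 hs0
    funext k
    cases k <;> simp [zer, hY, hO, h2s, h1]
  · have h4 : (cat (2 * S) fun m => lbits W (h m) ++ zer H).length = 2 * S * (W + H) :=
      cat_length fun i _ => by simp
    simp [hY, -List.length_append, h4]
    nlinarith

/-! ### Arithmetic of one slot -/

theorem mulS_eq {W t : ℕ} {y u : List Bool} (ht : t < 2 ^ W) (hu : lval u = lval (y.take W)) :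
    mulL W u (lbits W t) = D.mulS W t y := by
  rw [mulL, D.mulS, H811.lval_lbits_of_lt ht, hu, Nat.mul_comm (lval _) t]

theorem mulL_length (W : ℕ) (u v : List Bool) : (mulL W u v).length = 2 * W := by
  rw [mulL, H811.length_lbits]

theorem mulS_length (W t : ℕ) (y : List Bool) : (D.mulS W t y).length = 2 * W := by
  rw [D.mulS, H811.length_lbits]

/-! ### Pass F1 -/

section F1

variable (A : Machine)

/-- Loading the operands of one slot of F1: `a := true :: x` padded, `b := T`. -/
def slotD1 : Prog RD Bool :=
  .seq (fill rWb q0 a false) (.seq (pop a) (.seq (xfer rB q0 I tp) (.seq (flip tp a)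
    (.seq (push a true) (copy T q0 b)))))

/-- One slot of F1. -/
def slotD : Prog (RD ⊕ Sim.AReg A) (Bool ⊕ Sim.ASym A) :=
  .seq (slotD1.lift _ _) (.seq (callP A RD.a RD.b RD.c) ((flip c Y : Prog RD Bool).lift _ _))

/-- Load the next scalar. -/
def loadT : Prog RD Bool := .seq (xfer rW q0 tab tp) (flip tp T)

/-- One row of F1. -/
def rowD : Prog (RD ⊕ Sim.AReg A) (Bool ⊕ Sim.ASym A) :=
  .seq (loadT.lift _ _) (.seq (forR (.inl rn) (.inl q1) (slotD A))
    ((clear T : Prog RD Bool).lift _ _))

/-- Pass F1. -/
def f1D : Prog (RD ⊕ Sim.AReg A) (Bool ⊕ Sim.ASym A) :=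
  .seq (forR (.inl rs) (.inl q2) (rowD A))
    ((.seq (fill rKR q0 Y false) (flip Y O) : Prog RD Bool).lift _ _)

theorem slotD1_runs {s : Store RD Bool} {W bb : ℕ} {x rest : List Bool} (hb : bb < W)
    (hx : x.length = bb) (hX : s I = x ++ rest) (hB : s rB = zer bb) (hWb : s rWb = zer (W - bb))
    (ha : s a = []) (hb' : s b = []) (h0 : s q0 = []) (ht : s tp = []) (hT : (s T).length = W) :
    Runs slotD1 s (update (update (update s I rest) a (true :: (x ++ zer (W - bb - 1)))) b (s T))
      (11 * W + 9) := by
  refine ((Runs.fill (a := false) (b := false) (n := W - bb) (by decide) (by decide) (by decide)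
    hWb h0).seq ((Runs.pop a _).seq ((Runs.xfer (a := false) (n := bb) (u := x) (v := rest)
      (by decide) (by decide) (by decide) (by decide) (by decide) (by decide)
      (by simpa [zer] using hB) (by simpa using h0) (by simpa using hX) hx).seq
      ((Runs.flip (r := tp) (q := a) (by decide) _).seq ((Runs.push a true _).seq
        (Runs.copy (r := T) (q := q0) (dst := b) (by decide) (by decide) (by decide)
        (by simpa using h0))))))).conv ?_ ?_
  · funext k
    cases k <;> simp [ht, ha, hb', zer]
  · simp [ht, hx, hT]
    omega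

theorem slotD_runs {A : Machine} (hA : Multiplies A) {s : Store RD Bool} {W bb t : ℕ}
    {x rest : List Bool} (hb : bb < W) (ht : t < 2 ^ W)
    (hx : x.length = bb) (hX : s I = x ++ rest) (hB : s rB = zer bb) (hWb : s rWb = zer (W - bb))
    (ha : s a = []) (hb' : s b = []) (hc : s c = []) (h0 : s q0 = []) (htp : s tp = [])
    (hT : s T = lbits W t) :
    LRuns (slotD A) s (update (update s I rest) Y ((D.mulS W t (true :: x)).reverse ++ s Y))
      (6 * mulTime A W + 55 * W + 10) := by
  have hTl : (s T).length = W := by rw [hT, H811.length_lbits]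
  have e1 : (update (update (update s I rest) a (true :: (x ++ zer (W - bb - 1)))) b (s T) a) =
      true :: (x ++ zer (W - bb - 1)) := by simp
  have e2 : (update (update (update s I rest) a (true :: (x ++ zer (W - bb - 1)))) b (s T) b) =
      lbits W t := by simp [hT]
  have h2 := LRuns.callP hA (x := RD.a) (y := RD.b) (out := RD.c) (by decide) (by decide)
    (by decide) (m := W) (by omega)
    (s := update (update (update s I rest) a (true :: (x ++ zer (W - bb - 1)))) b (s T))
    (by rw [e1]; simp [hx]; omega) (by rw [e2]; simp) (by simpa using hc)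
  rw [e1, e2, mulS_eq (y := true :: x) ht (by
    rw [List.take_of_length_le (by simp [hx]; omega)]
    simp [H811.lval_append])] at h2
  refine LRuns.conv ((LRuns.base (slotD1_runs hb hx hX hB hWb ha hb' h0 htp hTl)).seq (h2.seq
    (LRuns.base (Runs.flip (r := c) (q := Y) (by decide) _)))) ?_ ?_
  · funext k
    cases k <;> simp [ha, hb', hc]
  · simp [mulS_length]
    omega

theorem loadT_runs {s : Store RD Bool} {W : ℕ} {u rest : List Bool} (hu : u.length = W)
    (htab : s tab = u ++ rest) (hW : s rW = zer W) (h0 : s q0 = []) (htp : s tp = [])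
    (hT : s T = []) :
    Runs loadT s (update (update s tab rest) T u) (7 * W + 3) := by
  refine ((Runs.xfer (a := false) (n := W) (u := u) (v := rest)
      (by decide) (by decide) (by decide) (by decide) (by decide) (by decide)
      hW h0 htab hu).seq (Runs.flip (r := tp) (q := T) (by decide) _)).conv ?_ ?_
  · funext k
    cases k <;> simp [htp, hT]
  · simp [htp, hu]
    omega

/-- cost of a row of F1 -/
noncomputable def costRowD (A : Machine) (W n : ℕ) : ℕ := n * (6 * mulTime A W + 55 * W + 14) + 9 * W + 6

theorem rowD_runs {A : Machine} (hA : Multiplies A) {s : Store RD Bool} {W bb n t : ℕ}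
    {x : ℕ → List Bool} {rest rest' : List Bool} (hb : bb < W) (ht : t < 2 ^ W)
    (hx : ∀ w < n, (x w).length = bb) (hX : s I = cat n x ++ rest)
    (htab : s tab = lbits W t ++ rest') (hn : s rn = zer n) (hW : s rW = zer W)
    (hB : s rB = zer bb) (hWb : s rWb = zer (W - bb))
    (ha : s a = []) (hb' : s b = []) (hc : s c = []) (h0 : s q0 = []) (h1 : s q1 = [])
    (htp : s tp = []) (hT : s T = []) :
    LRuns (rowD A) s (update (update (update s I rest) tab rest') Y
      ((cat n fun w => D.mulS W t (true :: x w)).reverse ++ s Y)) (costRowD A W n) := by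
  have hs0 : update (update (update (update s tab rest') T (lbits W t)) I
      (cat (n - 0) (fun w => x (0 + w)) ++ rest)) Y
      ((cat 0 fun w => D.mulS W t (true :: x w)).reverse ++ s Y) =
      update (update s tab rest') T (lbits W t) := by
    funext k
    cases k <;> simp [hX]
  have e1 := loadT_runs (s := s) (W := W) (u := lbits W t) (rest := rest') (by simp) htab hW h0
    htp hT
  have e2 := LRuns.forR (p := slotD A) (r := rn) (q := q1) (by decide) (a := false) (n := n)
    (fun j => update (update (update (update s tab rest') T (lbits W t)) I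
      (cat (n - j) (fun w => x (j + w)) ++ rest)) Y
      ((cat j fun w => D.mulS W t (true :: x w)).reverse ++ s Y))
    (6 * mulTime A W + 55 * W + 10) (by simpa [zer] using hn) (by simpa using h1)
    (by
      intro j hj
      refine LRuns.conv (slotD_runs hA (x := x j) (rest := cat (n - (j + 1))
        (fun w => x (j + 1 + w)) ++ rest) hb ht (hx j hj) ?_ ?_ ?_ ?_ ?_ ?_ ?_ ?_ ?_) ?_ le_rfl
      · simp [cat_next hj x]
      · simpa using hB
      · simpa using hWb
      · simpa using ha
      · simpa using hb'
      · simpa using hc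
      · simpa using h0
      · simpa using htp
      · simp
      · funext k
        cases k <;> simp [cat_succ])
  simp only [hs0] at e2
  refine LRuns.conv ((LRuns.base e1).seq (e2.seq (LRuns.base (Runs.clear T _)))) ?_ ?_
  · clear e1 e2 hs0
    funext k
    cases k <;> simp [hT, hn, h1, zer]
  · simp [costRowD]
    nlinarith

theorem f1D_runs {A : Machine} (hA : Multiplies A) {s : Store RD Bool} {W bb n S : ℕ} {t : ℕ → ℕ}
    {x : ℕ → ℕ → List Bool} (hb : bb < W) (ht : ∀ i < S, t i < 2 ^ W)
    (hx : ∀ i < S, ∀ w < n, (x i w).length = bb) (hX : s I = cat S fun i => cat n (x i))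
    (htab : s tab = cat S fun i => lbits W (t i)) (hS : s rs = zer S) (hn : s rn = zer n)
    (hW : s rW = zer W) (hB : s rB = zer bb) (hWb : s rWb = zer (W - bb))
    (hKR : s rKR = zer (S * (n * (2 * W))))
    (hY : s Y = []) (hO : s O = [])
    (ha : s a = []) (hb' : s b = []) (hc : s c = []) (h0 : s q0 = []) (h1 : s q1 = [])
    (h2 : s q2 = []) (htp : s tp = []) (hT : s T = []) :
    LRuns (f1D A) s (update (update (update s I []) tab []) O
      ((cat S fun i => cat n fun w => D.mulS W (t i) (true :: x i w)) ++
        zer (S * (n * (2 * W))))) (S * (n * (6 * mulTime A W + 73 * W + 14) + 9 * W + 10) + 5) := by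
  have hs0 : update (update (update s I ((cat (S - 0) fun i => cat n (x (0 + i))) ++ [])) tab
      ((cat (S - 0) fun i => lbits W (t (0 + i))) ++ [])) Y
      ((cat 0 fun i => cat n fun w => D.mulS W (t i) (true :: x i w)).reverse ++ s Y) = s := by
    funext k
    cases k <;> simp [hX, htab]
  have e2 := LRuns.forR (p := rowD A) (r := rs) (q := q2) (by decide) (a := false) (n := S)
    (fun j => update (update (update s I ((cat (S - j) fun i => cat n (x (j + i))) ++ [])) tab
      ((cat (S - j) fun i => lbits W (t (j + i))) ++ [])) Y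
      ((cat j fun i => cat n fun w => D.mulS W (t i) (true :: x i w)).reverse ++ s Y))
    (costRowD A W n) (by simpa [zer] using hS) (by simpa using h2)
    (by
      intro j hj
      refine LRuns.conv (rowD_runs hA (x := x j) (t := t j)
        (rest := (cat (S - (j + 1)) fun i => cat n (x (j + 1 + i))) ++ [])
        (rest' := (cat (S - (j + 1)) fun i => lbits W (t (j + 1 + i))) ++ []) hb (ht j hj)
        (hx j hj) ?_ ?_ ?_ ?_ ?_ ?_ ?_ ?_ ?_ ?_ ?_ ?_ ?_) ?_ le_rfl
      · simp [cat_next hj fun i => cat n (x i)]
      · simp [cat_next hj fun i => lbits W (t i)]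
      · simpa using hn
      · simpa using hW
      · simpa using hB
      · simpa using hWb
      · simpa using ha
      · simpa using hb'
      · simpa using hc
      · simpa using h0
      · simpa using h1
      · simpa using htp
      · simpa using hT
      · funext k
        cases k <;> simp [cat_succ])
  simp only [hs0] at e2
  refine LRuns.conv (e2.seq (LRuns.base ((Runs.fill (a := false) (b := false)
    (n := S * (n * (2 * W))) (r := rKR) (q := q0) (dst := Y) (by decide) (by decide) (by decide)
    (by simpa [zer] using hKR) (by simpa using h0)).seq (Runs.flip (r := Y) (q := O)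
    (by decide) _)))) ?_ ?_
  · clear e2 hs0
    funext k
    cases k <;> simp [hS, hY, hO, h2, zer]
  · have h4 : (cat S fun i => cat n fun w => D.mulS W (t i) (true :: x i w)).length =
        S * (n * (2 * W)) := cat_length fun i _ => cat_length fun w _ => mulS_length _ _ _
    simp [hY, h4, costRowD]
    nlinarith

end F1

/-! ### Pass F3 -/

section F3

variable (A : Machine)

/-- Loading the operands of the first product of a slot of F3. -/
def slotE1 : Prog RD Bool :=
  .seq (xfer rW q0 I tp) (.seq (flip tp a) (.seq (skip rW q0 I) (copy T q0 b)))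

/-- Loading the operands of the second product. -/
def slotE2 : Prog RD Bool :=
  .seq (xfer rW q0 c tp) (.seq (flip tp a) (.seq (clear c) (copy mu q0 b)))

/-- Reading the result. -/
def slotE3 : Prog RD Bool :=
  .seq (skip rWb q0 c) (.seq (xfer rB q0 c Y) (clear c))

/-- One slot of F3. -/
def slotE : Prog (RD ⊕ Sim.AReg A) (Bool ⊕ Sim.ASym A) :=
  .seq (slotE1.lift _ _) (.seq (callP A RD.a RD.b RD.c) (.seq (slotE2.lift _ _)
    (.seq (callP A RD.a RD.b RD.c) (slotE3.lift _ _))))

/-- One row of F3. -/
def rowE : Prog (RD ⊕ Sim.AReg A) (Bool ⊕ Sim.ASym A) :=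
  .seq (loadT.lift _ _) (.seq (forR (.inl rn) (.inl q1) (slotE A))
    ((clear T : Prog RD Bool).lift _ _))

/-- Pass F3. -/
def f3D : Prog (RD ⊕ Sim.AReg A) (Bool ⊕ Sim.ASym A) :=
  .seq ((skip rKR q0 I : Prog RD Bool).lift _ _) (.seq (forR (.inl rs) (.inl q2) (rowE A))
    ((.seq (clear I) (flip Y O) : Prog RD Bool).lift _ _))

theorem slotE1_runs {s : Store RD Bool} {W : ℕ} {y rest : List Bool}
    (hy : y.length = 2 * W) (hX : s I = y ++ rest) (hW : s rW = zer W)
    (ha : s a = []) (hb' : s b = []) (h0 : s q0 = []) (ht : s tp = []) (hT : (s T).length = W) :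
    Runs slotE1 s (update (update (update s I rest) a (y.take W)) b (s T)) (16 * W + 7) := by
  have e1 : s I = y.take W ++ (y.drop W ++ rest) := by
    rw [← List.append_assoc, List.take_append_drop, hX]
  refine ((Runs.xfer (a := false) (n := W) (u := y.take W) (v := y.drop W ++ rest)
      (by decide) (by decide) (by decide) (by decide) (by decide) (by decide)
      hW h0 e1 (by simp [hy]; omega)).seq
      ((Runs.flip (r := tp) (q := a) (by decide) _).seq ((Runs.skip (a := false) (n := W)
        (u := y.drop W) (v := rest) (by decide) (by decide) (by decide)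
        (by simpa [zer] using hW) (by simpa using h0) (by simp) (by simp [hy]; omega)).seq
        (Runs.copy (r := T) (q := q0) (dst := b) (by decide) (by decide) (by decide)
        (by simpa using h0))))).conv ?_ ?_
  · funext k
    cases k <;> simp [ht, ha, hb']
  · simp [ht, hy, hT]
    omega

theorem slotE2_runs {s : Store RD Bool} {W : ℕ} {z : List Bool}
    (hz : z.length = 2 * W) (hX : s c = z) (hW : s rW = zer W)
    (ha : s a = []) (hb' : s b = []) (h0 : s q0 = []) (ht : s tp = []) (hm : (s mu).length = W) :
    Runs slotE2 s (update (update (update s c []) a (z.take W)) b (s mu)) (13 * W + 6) := by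
  have e1 : s c = z.take W ++ z.drop W := by rw [List.take_append_drop, hX]
  refine ((Runs.xfer (a := false) (n := W) (u := z.take W) (v := z.drop W)
      (by decide) (by decide) (by decide) (by decide) (by decide) (by decide)
      hW h0 e1 (by simp [hz]; omega)).seq
      ((Runs.flip (r := tp) (q := a) (by decide) _).seq ((Runs.clear c _).seq
        (Runs.copy (r := mu) (q := q0) (dst := b) (by decide) (by decide) (by decide)
        (by simpa using h0))))).conv ?_ ?_
  · funext k
    cases k <;> simp [ht, ha, hb']
  · simp [ht, hz, hm]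
    omega

theorem slotE3_runs {s : Store RD Bool} {W bb : ℕ} {z : List Bool} (hb : bb ≤ W)
    (hz : z.length = 2 * W) (hX : s c = z) (hB : s rB = zer bb) (hWb : s rWb = zer (W - bb))
    (h0 : s q0 = []) :
    Runs slotE3 s (update (update s c []) Y (((z.drop (W - bb)).take bb).reverse ++ s Y))
      (7 * W + 5) := by
  have e1 : s c = z.take (W - bb) ++ ((z.drop (W - bb)).take bb ++ (z.drop (W - bb)).drop bb) := by
    rw [List.take_append_drop, List.take_append_drop, hX]
  refine ((Runs.skip (a := false) (n := W - bb) (u := z.take (W - bb))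
    (v := (z.drop (W - bb)).take bb ++ (z.drop (W - bb)).drop bb) (by decide) (by decide)
    (by decide) hWb h0 e1 (by simp [hz]; omega)).seq ((Runs.xfer (a := false) (n := bb)
    (u := (z.drop (W - bb)).take bb) (v := (z.drop (W - bb)).drop bb)
      (by decide) (by decide) (by decide) (by decide) (by decide) (by decide)
      (by simpa [zer] using hB) (by simpa using h0) (by simp) (by simp [hz]; omega)).seq
      (Runs.clear c _))).conv ?_ ?_
  · clear e1
    funext k
    cases k <;> simp
  · simp [hz]
    omega

theorem slotE_runs {A : Machine} (hA : Multiplies A) {s : Store RD Bool} {W bb t mu' : ℕ}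
    {y rest : List Bool} (hb : bb < W) (ht : t < 2 ^ W) (hmu : mu' < 2 ^ W)
    (hy : y.length = 2 * W) (hX : s I = y ++ rest) (hW : s rW = zer W) (hB : s rB = zer bb)
    (hWb : s rWb = zer (W - bb)) (ha : s a = []) (hb' : s b = []) (hc : s c = [])
    (h0 : s q0 = []) (htp : s tp = []) (hT : s T = lbits W t) (hM : s mu = lbits W mu') :
    LRuns (slotE A) s (update (update s I rest) Y
      ((((D.mulS W mu' (D.mulS W t y)).drop (W - bb)).take bb).reverse ++ s Y))
      (12 * mulTime A W + 116 * W + 18) := by
  have hTl : (s T).length = W := by rw [hT, H811.length_lbits]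
  have hMl : (s mu).length = W := by rw [hM, H811.length_lbits]
  have h1 := slotE1_runs hy hX hW ha hb' h0 htp hTl
  have h2 := LRuns.callP hA (x := RD.a) (y := RD.b) (out := RD.c) (by decide) (by decide)
    (by decide) (m := W) (by omega)
    (s := update (update (update s I rest) a (y.take W)) b (s T))
    (by simp [hy]; omega) (by simp [hTl]) (by simpa using hc)
  have e1 : mulL W (update (update (update s I rest) a (y.take W)) b (s T) a)
      (update (update (update s I rest) a (y.take W)) b (s T) b) = D.mulS W t y := by
    rw [← mulS_eq (W := W) (t := t) (y := y) (u := y.take W) ht rfl]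
    simp [hT]
  rw [e1] at h2
  have h3 := slotE2_runs (s := update (update (update (update (update (update s I rest) a
    (y.take W)) b (s T)) a []) b []) c (D.mulS W t y)) (W := W) (z := D.mulS W t y)
    (mulS_length _ _ _) (by simp) (by simpa using hW) (by simp) (by simp) (by simpa using h0)
    (by simpa using htp) (by simpa using hMl)
  have h4 := LRuns.callP hA (x := RD.a) (y := RD.b) (out := RD.c) (by decide) (by decide)
    (by decide) (m := W) (by omega)
    (s := update (update (update (update (update (update (update (update (update s I rest) a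
    (y.take W)) b (s T)) a []) b []) c (D.mulS W t y)) c []) a ((D.mulS W t y).take W)) b
    (update (update (update (update (update (update s I rest) a
    (y.take W)) b (s T)) a []) b []) c (D.mulS W t y) mu))
    (by simp [mulS_length]; omega) (by simp [hMl]) (by simp)
  have e2 : mulL W (update (update (update (update (update (update (update (update (update s I
    rest) a
    (y.take W)) b (s T)) a []) b []) c (D.mulS W t y)) c []) a ((D.mulS W t y).take W)) b
    (update (update (update (update (update (update s I rest) a
    (y.take W)) b (s T)) a []) b []) c (D.mulS W t y) mu) a)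
    (update (update (update (update (update (update (update (update (update s I
    rest) a
    (y.take W)) b (s T)) a []) b []) c (D.mulS W t y)) c []) a ((D.mulS W t y).take W)) b
    (update (update (update (update (update (update s I rest) a
    (y.take W)) b (s T)) a []) b []) c (D.mulS W t y) mu) b) = D.mulS W mu' (D.mulS W t y) := by
    rw [← mulS_eq (W := W) (t := mu') (y := D.mulS W t y) (u := (D.mulS W t y).take W) hmu rfl]
    simp [hM]
  rw [e2] at h4
  refine LRuns.conv ((LRuns.base h1).seq (h2.seq ((LRuns.base h3).seq (h4.seq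
    (LRuns.base (slotE3_runs (z := D.mulS W mu' (D.mulS W t y)) hb.le (mulS_length _ _ _)
      (by simp) (by simpa using hB) (by simpa using hWb) (by simpa using h0))))))) ?_ ?_
  · clear h1 h2 h3 h4 e1 e2
    funext k
    cases k <;> simp [ha, hb', hc]
  · omega

/-- cost of a row of F3 -/
noncomputable def costRowE (A : Machine) (W n : ℕ) : ℕ :=
  n * (12 * mulTime A W + 116 * W + 22) + 9 * W + 6

/-- The words produced by one slot of F3. -/
def ext (W bb mu' t : ℕ) (y : List Bool) : List Bool :=
  ((D.mulS W mu' (D.mulS W t y)).drop (W - bb)).take bb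

theorem ext_length {W bb mu' t : ℕ} {y : List Bool} (hb : bb ≤ W) :
    (ext W bb mu' t y).length = bb := by
  simp [ext, mulS_length]
  omega

theorem rowE_runs {A : Machine} (hA : Multiplies A) {s : Store RD Bool} {W bb n t mu' : ℕ}
    {y : ℕ → List Bool} {rest rest' : List Bool} (hb : bb < W) (ht : t < 2 ^ W)
    (hmu : mu' < 2 ^ W)
    (hy : ∀ w < n, (y w).length = 2 * W) (hX : s I = cat n y ++ rest)
    (htab : s tab = lbits W t ++ rest') (hn : s rn = zer n) (hW : s rW = zer W)
    (hB : s rB = zer bb) (hWb : s rWb = zer (W - bb))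
    (ha : s a = []) (hb' : s b = []) (hc : s c = []) (h0 : s q0 = []) (h1 : s q1 = [])
    (htp : s tp = []) (hT : s T = []) (hM : s mu = lbits W mu') :
    LRuns (rowE A) s (update (update (update s I rest) tab rest') Y
      ((cat n fun w => ext W bb mu' t (y w)).reverse ++ s Y)) (costRowE A W n) := by
  have hs0 : update (update (update (update s tab rest') T (lbits W t)) I
      (cat (n - 0) (fun w => y (0 + w)) ++ rest)) Y
      ((cat 0 fun w => ext W bb mu' t (y w)).reverse ++ s Y) =
      update (update s tab rest') T (lbits W t) := by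
    funext k
    cases k <;> simp [hX]
  have e1 := loadT_runs (s := s) (W := W) (u := lbits W t) (rest := rest') (by simp) htab hW h0
    htp hT
  have e2 := LRuns.forR (p := slotE A) (r := rn) (q := q1) (by decide) (a := false) (n := n)
    (fun j => update (update (update (update s tab rest') T (lbits W t)) I
      (cat (n - j) (fun w => y (j + w)) ++ rest)) Y
      ((cat j fun w => ext W bb mu' t (y w)).reverse ++ s Y))
    (12 * mulTime A W + 116 * W + 18) (by simpa [zer] using hn) (by simpa using h1)
    (by
      intro j hj
      refine LRuns.conv (slotE_runs hA (y := y j) (rest := cat (n - (j + 1))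
        (fun w => y (j + 1 + w)) ++ rest) hb ht hmu (hy j hj) ?_ ?_ ?_ ?_ ?_ ?_ ?_ ?_ ?_ ?_ ?_)
        ?_ le_rfl
      · simp [cat_next hj y]
      · simpa using hW
      · simpa using hB
      · simpa using hWb
      · simpa using ha
      · simpa using hb'
      · simpa using hc
      · simpa using h0
      · simpa using htp
      · simp
      · simpa using hM
      · funext k
        cases k <;> simp [cat_succ, ext])
  simp only [hs0] at e2
  refine LRuns.conv ((LRuns.base e1).seq (e2.seq (LRuns.base (Runs.clear T _)))) ?_ ?_
  · clear e1 e2 hs0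
    funext k
    cases k <;> simp [hT, hn, h1, zer]
  · simp [costRowE]
    nlinarith

theorem f3D_runs {A : Machine} (hA : Multiplies A) {s : Store RD Bool} {W bb n S mu' : ℕ}
    {t : ℕ → ℕ} {y : ℕ → ℕ → List Bool} {rest : List Bool} (hb : bb < W)
    (ht : ∀ i < S, t i < 2 ^ W) (hmu : mu' < 2 ^ W)
    (hy : ∀ r < 2 * S, ∀ w < n, (y r w).length = 2 * W)
    (hX : s I = (cat (2 * S) fun r => cat n (y r)) ++ rest)
    (htab : s tab = cat S fun i => lbits W (t i)) (hS : s rs = zer S) (hn : s rn = zer n)
    (hW : s rW = zer W) (hB : s rB = zer bb) (hWb : s rWb = zer (W - bb))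
    (hKR : s rKR = zer (S * (n * (2 * W))))
    (hY : s Y = []) (hO : s O = [])
    (ha : s a = []) (hb' : s b = []) (hc : s c = []) (h0 : s q0 = []) (h1 : s q1 = [])
    (h2 : s q2 = []) (htp : s tp = []) (hT : s T = []) (hM : s mu = lbits W mu') :
    LRuns (f3D A) s (update (update (update s I []) tab []) O
      (cat S fun j => cat n fun w => ext W bb mu' (t j) (y (S + j) w)))
      (S * (n * (12 * mulTime A W + 128 * W + 22) + 9 * W + 10) + 2 * rest.length + 6) := by
  have hl : (cat S fun r => cat n (y r)).length = S * (n * (2 * W)) :=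
    cat_length fun i hi => cat_length fun w hw => hy i (by omega) w hw
  have hsplit : s I = (cat S fun r => cat n (y r)) ++ ((cat S fun j => cat n (y (S + j))) ++ rest) := by
    rw [hX, two_mul, H811.cat_add, List.append_assoc]
  have e0 := Runs.skip (s := s) (r := rKR) (q := q0) (src := I) (a := false)
    (n := S * (n * (2 * W))) (u := cat S fun r => cat n (y r))
    (v := (cat S fun j => cat n (y (S + j))) ++ rest)
    (by decide) (by decide) (by decide) hKR h0 hsplit hl
  have hs0 : update (update (update s I ((cat (S - 0) fun i => cat n (y (S + (0 + i)))) ++ rest)) tab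
      ((cat (S - 0) fun i => lbits W (t (0 + i))) ++ [])) Y
      ((cat 0 fun i => cat n fun w => ext W bb mu' (t i) (y (S + i) w)).reverse ++ s Y) =
      update s I ((cat S fun j => cat n (y (S + j))) ++ rest) := by
    funext k
    cases k <;> simp [htab]
  have e2 := LRuns.forR (p := rowE A) (r := rs) (q := q2) (by decide) (a := false) (n := S)
    (fun j => update (update (update s I ((cat (S - j) fun i => cat n (y (S + (j + i)))) ++ rest))
      tab ((cat (S - j) fun i => lbits W (t (j + i))) ++ [])) Y
      ((cat j fun i => cat n fun w => ext W bb mu' (t i) (y (S + i) w)).reverse ++ s Y))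
    (costRowE A W n) (by simpa [zer] using hS) (by simpa using h2)
    (by
      intro j hj
      refine LRuns.conv (rowE_runs hA (y := y (S + j)) (t := t j)
        (rest := (cat (S - (j + 1)) fun i => cat n (y (S + (j + 1 + i)))) ++ rest)
        (rest' := (cat (S - (j + 1)) fun i => lbits W (t (j + 1 + i))) ++ []) hb (ht j hj) hmu
        (hy (S + j) (by omega)) ?_ ?_ ?_ ?_ ?_ ?_ ?_ ?_ ?_ ?_ ?_ ?_ ?_ ?_) ?_ le_rfl
      · simp [cat_next hj fun i => cat n (y (S + i))]
      · simp [cat_next hj fun i => lbits W (t i)]
      · simpa using hn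
      · simpa using hW
      · simpa using hB
      · simpa using hWb
      · simpa using ha
      · simpa using hb'
      · simpa using hc
      · simpa using h0
      · simpa using h1
      · simpa using htp
      · simpa using hT
      · simpa using hM
      · funext k
        cases k <;> simp [cat_succ])
  simp only [hs0] at e2
  refine LRuns.conv ((LRuns.base e0).seq (e2.seq (LRuns.base ((Runs.clear I _).seq
    (Runs.flip (r := Y) (q := O) (by decide) _))))) ?_ ?_
  · clear e0 e2 hs0
    funext k
    cases k <;> simp [hS, hY, hO, h2, zer]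
  · have h4 : (cat S fun i => cat n fun w => ext W bb mu' (t i) (y (S + i) w)).length =
        S * (n * bb) := cat_length fun i _ => cat_length fun w _ => ext_length hb.le
    simp [hY, h4, costRowE]
    have h5 : S * (n * bb) ≤ S * (n * W) :=
      Nat.mul_le_mul_left _ (Nat.mul_le_mul_left _ hb.le)
    nlinarith

end F3

/-! ### Final specifications, over any register type -/

/-- All scratch registers of the passes are empty. -/
structure ScrD {R : Type} (e : RD → R) (S : Store R Bool) : Prop where
  Y : S (e .Y) = []
  O : S (e .O) = []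
  a : S (e .a) = []
  b : S (e .b) = []
  c : S (e .c) = []
  T : S (e .T) = []
  q0 : S (e .q0) = []
  q1 : S (e .q1) = []
  q2 : S (e .q2) = []
  tp : S (e .tp) = []

/-- The rulers of the passes of stage 2. -/
structure RulD {R : Type} (e : RD → R) (S : Store R Bool) (W b s : ℕ) : Prop where
  rs : S (e .rs) = zer s
  rn : S (e .rn) = zer (s * b)
  rB : S (e .rB) = zer b
  rW : S (e .rW) = zer W
  rWb : S (e .rWb) = zer (W - b)
  rKR : S (e .rKR) = zer (s * (s * b * (2 * W)))
  r2s : S (e .r2s) = zer (2 * s)
  rHZ : S (e .rHZ) = zer (s * b * (2 * W) - W)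

section final

variable {R : Type} [DecidableEq R] {e : RD → R}

/-- **Kernel program of stage 2.** -/
theorem kernelD_runs (he : Function.Injective e) {S : Store R Bool} {W b p : ℕ} {h : ℕ → ℕ}
    (hr : RulD e S W b (p - 1)) (hs : ScrD e S)
    (htab : S (e .tab) = cat (2 * (p - 1)) fun m => lbits W (h m)) :
    Runs (kerDP.ren e) S (update (update S (e .tab) []) (e .O) (D.kernel W b p h))
      (2 * (p - 1) * (7 * W + 7 * ((p - 1) * b * (2 * W) - W) + 8) + 3) := by
  have h1 := (kerDP_runs (s := fun l => S (e l)) htab hr.r2s hr.rW hr.rHZ hs.Y hs.O hs.q0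
    hs.q1).ren' he S fun _ => rfl
  refine h1.conv ?_ le_rfl
  rw [put_update he, put_update he, put_self he]
  rfl

/-- **Pass F1 of stage 2.** -/
theorem F1D_runs {A : Machine} (hA : Multiplies A) (he : Function.Injective e) {S : Store R Bool}
    {W b p om : ℕ} {x : ℕ → ℕ → List Bool} (hb : b < W) (hp : p ≤ 2 ^ W) (hp0 : 0 < p)
    (hr : RulD e S W b (p - 1)) (hs : ScrD e S)
    (hx : ∀ i < p - 1, ∀ w < (p - 1) * b, (x i w).length = b)
    (hX : S (e .I) = cat (p - 1) fun i => cat ((p - 1) * b) (x i))
    (htab : S (e .tab) = cat (p - 1) fun i => lbits W (D.T1 p om i)) :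
    LRuns ((f1D A).ren (Sum.map e id)) S
      (update (update (update S (e .I) []) (e .tab) []) (e .O) (D.f1 W b p om x))
      ((p - 1) * ((p - 1) * b * (6 * mulTime A W + 73 * W + 14) + 9 * W + 10) + 5) := by
  have ht : ∀ i < p - 1, D.T1 p om i < 2 ^ W := fun i _ =>
    lt_of_lt_of_le (Nat.mod_lt _ hp0) hp
  have h1 := (f1D_runs hA (s := fun l => S (e l)) (bb := b) (n := (p - 1) * b) (S := p - 1) hb ht
    hx hX htab hr.rs hr.rn hr.rW hr.rB hr.rWb hr.rKR hs.Y hs.O hs.a hs.b hs.c hs.q0 hs.q1 hs.q2
    hs.tp hs.T).ren he S fun _ => rfl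
  refine h1.conv ?_ le_rfl
  rw [put_update he, put_update he, put_update he, put_self he]
  rfl

/-- **Pass F3 of stage 2.** -/
theorem F3D_runs {A : Machine} (hA : Multiplies A) (he : Function.Injective e) {S : Store R Bool}
    {W b p om : ℕ} {y : ℕ → ℕ → List Bool} {rest : List Bool} (hb : b < W) (hp : p ≤ 2 ^ W)
    (hp0 : 1 < p) (hr : RulD e S W b (p - 1)) (hs : ScrD e S)
    (hy : ∀ r < 2 * (p - 1), ∀ w < (p - 1) * b, (y r w).length = 2 * W)
    (hX : S (e .I) = (cat (2 * (p - 1)) fun r => cat ((p - 1) * b) (y r)) ++ rest)
    (htab : S (e .tab) = cat (p - 1) fun j => lbits W (D.T3 p om b j))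
    (hmu : S (e .mu) = lbits W (2 ^ W / p)) :
    LRuns ((f3D A).ren (Sum.map e id)) S
      (update (update (update S (e .I) []) (e .tab) []) (e .O) (D.f3 W b p om y))
      ((p - 1) * ((p - 1) * b * (12 * mulTime A W + 128 * W + 22) + 9 * W + 10) +
        2 * rest.length + 6) := by
  have ht : ∀ i < p - 1, D.T3 p om b i < 2 ^ W := fun i _ =>
    lt_of_lt_of_le (Nat.mod_lt _ (by omega)) hp
  have hmu' : 2 ^ W / p < 2 ^ W := Nat.div_lt_self (by positivity) hp0
  have h1 := (f3D_runs hA (s := fun l => S (e l)) (bb := b) (n := (p - 1) * b) (S := p - 1) hb ht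
    hmu' hy hX htab hr.rs hr.rn hr.rW hr.rB hr.rWb hr.rKR hs.Y hs.O hs.a hs.b hs.c hs.q0 hs.q1
    hs.q2 hs.tp hs.T hmu).ren he S fun _ => rfl
  refine h1.conv ?_ le_rfl
  rw [put_update he, put_update he, put_update he, put_self he]
  rfl

end final

end Vale.Agent.P338.H763
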